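import Vale.Agent.P219.Dir.Defs
import Vale.Agent.P219.Bend.Pins
import Vale.Agent.P219.Bend.HessDist
import Vale.Agent.P219.Bend.Jacobian

/-!
# P219: the directional row in curvature at most `-b ^ 2`

With `a = r ^ 2 / 2`, `cfac b a = b r coth (b r)` and `sfac b a = sinh (b r) / (b r)`. For `b = 0`
the integrand is `Dir.kern`.
-/

noncomputable section

open MeasureTheory Set Filter Topology Matrix

namespace Vale.Agent.P219.CH.Dir

variable {n : ℕ}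

/-- The integrand of the row per unit of `|du| dvol` in curvature at most `-b ^ 2`. -/
def kernB (n : ℕ) (b h : ℝ) (w : ℝ × ℝ → ℝ) (a s d : ℝ) : ℝ :=
  ((1 - d ^ 2) + Bend.cfac b a * (((n : ℝ) - 2) + d ^ 2)) * w (a, s)
    + (1 - d ^ 2) * (2 * a * wa w (a, s) + s * wb w (a, s))
    - |wb w (a, s)| * |d| * Real.sqrt (1 - d ^ 2) * Real.sqrt (2 * a - s ^ 2) / Bend.sfac b a
    - h * Real.sqrt (2 * a) * max d 0 * w (a, s)

/-- Without curvature it is the integrand of the flat row. -/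
theorem kernB_zero (n : ℕ) (h : ℝ) (w : ℝ × ℝ → ℝ) (a s d : ℝ) :
    kernB n 0 h w a s d = kern n h w a s d := by
  simp only [kernB, kern, Bend.cfac_zero, Bend.sfac, Bend.cshd_zero, zero_pow two_ne_zero, mul_zero,
    zero_mul]
  ring

/-- The first variation with a directional weight, against a profile. -/
def DirRowBendPin (n : ℕ) : Prop :=
  2 ≤ n → ∀ (G : (Fin n → ℝ) → Matrix (Fin n) (Fin n) ℝ)
    (D : (Fin n → ℝ) → (Fin n → ℝ) → ℝ), IsCH G D → ∀ b : ℝ, Bend.BendCH G D b →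
    ∀ (o : Fin n → ℝ) (R P₀ v₀ M θ κ : ℝ) (Φ hs : ℝ → ℝ), 0 < R → 0 ≤ P₀ → 0 < v₀ →
      Bend.IsProfile Φ hs → 0 ≤ M → 1 < θ → 0 < κ →
    ∀ (P : Set ℝ) (w : ℝ → ℝ × ℝ → ℝ), IsCompact P →
      ContDiff ℝ 1 (fun z : ℝ × ℝ × ℝ => w z.1 z.2) →
      (∀ p ∈ P, ∀ a s, 0 ≤ a → s ^ 2 ≤ 2 * a → 0 < w p (a, s)) →
    ∀ᶠ δ in 𝓝[>] (0 : ℝ), ∀ u, Bend.NearMinP G D o R P₀ v₀ Φ M δ u →
      ∀ x σ, D o x ≤ R → conorm G x σ ≤ 1 → ∀ p ∈ P,
        Integrable (fun y => kernB n b (θ * hs (vol G u)) (w p) (D x y) (side G D x σ y)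
            (scos G D u x y)) (Sharp.pm G u) ∧
          ∫ y, kernB n b (θ * hs (vol G u)) (w p) (D x y) (side G D x σ y) (scos G D u x y)
            ∂Sharp.pm G u ≤ κ

end Vale.Agent.P219.CH.Dir
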