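import Vale.Agent.P219.Dir.VolStep
import Vale.Agent.P219.Sharp.GainNode

/-!
# P219: the row of a continuous family of centres and weights
-/

noncomputable section

open MeasureTheory Set Filter Topology Matrix

namespace Vale.Agent.P219.CH.Dir

open Sharp

variable {n : ℕ} {G : (Fin n → ℝ) → Matrix (Fin n) (Fin n) ℝ}
  {D : (Fin n → ℝ) → (Fin n → ℝ) → ℝ} {K : Set (Fin n → ℝ)} {u : (Fin n → ℝ) → ℝ}

/-- The integrand of the first variation along `W ∇ D c` with mean curvature `hh`. -/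
def rowDens (G : (Fin n → ℝ) → Matrix (Fin n) (Fin n) ℝ) (D : (Fin n → ℝ) → (Fin n → ℝ) → ℝ)
    (hh : ℝ) (c : Fin n → ℝ) (W : (Fin n → ℝ) → ℝ) (y ξ : Fin n → ℝ) : ℝ :=
  varW G D c W y ξ - hh * (max (-pairing G y ξ (cd (D c) y)) 0 * W y)

/-- The row of a centre and a weight. -/
def rowInteg (G : (Fin n → ℝ) → Matrix (Fin n) (Fin n) ℝ) (D : (Fin n → ℝ) → (Fin n → ℝ) → ℝ)
    (hh : ℝ) (c : Fin n → ℝ) (W u : (Fin n → ℝ) → ℝ) : ℝ :=
  ∫ y, rowDens G D hh c W y (cd u y) * dens G y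

lemma outflux_le (h : IsCH G D) (c : Fin n → ℝ) (y ξ : Fin n → ℝ) :
    max (-pairing G y ξ (cd (D c) y)) 0 ≤ conorm G y ξ * Real.sqrt (2 * D c y) := by
  refine max_le ((neg_le_abs _).trans ?_) (mul_nonneg (conorm_nonneg _ _) (Real.sqrt_nonneg _))
  refine (h.abs_pairing_le y ξ _).trans (le_of_eq ?_)
  rw [conorm, conorm, h.eikonal]

lemma integrable_varW (h : IsCH G D) (hK : IsCompact K) (hu : Comp K u) (c : Fin n → ℝ)
    {W : (Fin n → ℝ) → ℝ} (hW : ContDiff ℝ 1 W) :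
    Integrable fun y => varW G D c W y (cd u y) * dens G y := by
  obtain ⟨Cv, -, hCv⟩ := exists_abs_varW_le h c hW hK
  have i0 : Integrable fun y => conorm G y (cd u y) * dens G y := by
    simpa using h.integrable_mul_conorm hK hu (continuous_const (y := (1 : ℝ)))
  refine (i0.const_mul Cv).mono'
    ((measurable_varW_cd h c hW hu.1).mul h.continuous_dens.measurable).aestronglyMeasurable
    (Eventually.of_forall fun y => ?_)
  rw [Real.norm_eq_abs, abs_mul, abs_of_pos (h.dens_pos y), ← mul_assoc]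
  refine mul_le_mul_of_nonneg_right ?_ (h.dens_pos y).le
  by_cases hy : y ∈ K
  · exact hCv y hy _
  · simp [cd_eq_zero_of_notMem fun hs => hy (hu.2.1 hs), varW_zero, conorm_zero]

lemma integrable_outflux (h : IsCH G D) (hK : IsCompact K) (hu : Comp K u) (c : Fin n → ℝ)
    {W : (Fin n → ℝ) → ℝ} (hW : Continuous W) :
    Integrable fun y => max (-normalPart G D c u y) 0 * W y * dens G y := by
  refine Continuous.integrable_of_hasCompactSupport
    ((((h.continuous_normalPart hu.1 c).neg.max continuous_const).mul hW).mul h.continuous_dens)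
    (HasCompactSupport.intro hK fun y hy => ?_)
  simp [normalPart, pairing, cd_eq_zero_of_notMem fun hs => hy (hu.2.1 hs)]

lemma integrable_rowDens (h : IsCH G D) (hK : IsCompact K) (hu : Comp K u) (hh : ℝ)
    (c : Fin n → ℝ) {W : (Fin n → ℝ) → ℝ} (hW : ContDiff ℝ 1 W) :
    Integrable fun y => rowDens G D hh c W y (cd u y) * dens G y := by
  refine ((integrable_varW h hK hu c hW).sub
    ((integrable_outflux h hK hu c hW.continuous).const_mul hh)).congr
      (Eventually.of_forall fun y => ?_)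
  simp only [Pi.sub_apply, rowDens, normalPart]
  ring

lemma rowInteg_eq (h : IsCH G D) (hK : IsCompact K) (hu : Comp K u) (hh : ℝ) (c : Fin n → ℝ)
    {W : (Fin n → ℝ) → ℝ} (hW : ContDiff ℝ 1 W) :
    rowInteg G D hh c W u = (∫ y, varW G D c W y (cd u y) * dens G y) -
      hh * ∫ y, max (-normalPart G D c u y) 0 * W y * dens G y := by
  rw [← integral_const_mul, ← integral_sub (integrable_varW h hK hu c hW)
    ((integrable_outflux h hK hu c hW.continuous).const_mul hh), rowInteg]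
  refine integral_congr_ae (Eventually.of_forall fun y => ?_)
  simp only [rowDens, normalPart]
  ring

/-- The row at one centre with one weight. -/
theorem node_out (hn : 2 ≤ n) (h : IsCH G D) (o : Fin n → ℝ) {R P₀ v₀ l M θ κ α : ℝ}
    (hP₀ : 0 ≤ P₀) (hv₀ : 0 < v₀) (hl : 0 < l) (hM : 0 ≤ M) (hθ : 1 < θ) (hκ : 0 < κ)
    (hα : α = ((n : ℝ) - 1) / n) {c : Fin n → ℝ} (hc : D o c ≤ R) {W : (Fin n → ℝ) → ℝ}
    (hW : ContDiff ℝ 1 W) (hWp : ∀ y, D o y ≤ R + 1 → 0 < W y) :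
    ∀ᶠ δ in 𝓝[>] (0 : ℝ), ∀ u, NearMin G D o R P₀ v₀ l M δ u →
      rowInteg G D (l * α * θ * vol G u ^ (α - 1)) c W u ≤ κ := by
  set K : Set (Fin n → ℝ) := {y | D o y ≤ R}
  have hK : IsCompact K := h.proper o R
  have hn2 : (2 : ℝ) ≤ n := by exact_mod_cast hn
  have hα0 : 0 < α := by rw [hα]; exact div_pos (by linarith) (by linarith)
  have hα1 : α ≤ 1 := by rw [hα, div_le_one (by linarith)]; linarith
  have hθ0 : 0 < θ := by linarith
  have hWK : ∀ y ∈ K, 0 < W y := fun y hy => hWp y (by have : D o y ≤ R := hy; linarith)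
  obtain ⟨hmax, hhmax⟩ : ∃ z : ℝ, z = l * α * θ * v₀ ^ (α - 1) := ⟨_, rfl⟩
  have hmax0 : 0 < hmax := by rw [hhmax]; positivity
  obtain ⟨e, he⟩ : ∃ z : ℝ, z = κ / (2 * (P₀ * (1 + hmax) + 1)) := ⟨_, rfl⟩
  have he0 : 0 < e := by rw [he]; positivity
  obtain ⟨τ, C, hτ, hC, hvar⟩ := exists_outVar h o hc hW hWp he0
  obtain ⟨Bw, hBw0, hBw⟩ : ∃ B : ℝ, 0 ≤ B ∧ ∀ y ∈ K, W y * √(2 * D c y) ≤ B := by
    obtain ⟨B, hB⟩ := hK.bddAbove_image (f := fun y => W y * √(2 * D c y))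
      (hW.continuous.mul (continuous_const.mul (h.continuous_D_left c)).sqrt).continuousOn
    exact ⟨max B 0, le_max_right _ _, fun y hy => (hB ⟨y, hy, rfl⟩).trans (le_max_left _ _)⟩
  obtain ⟨Fm, hFm⟩ : ∃ z : ℝ, z = Bw * P₀ + e * P₀ + 1 := ⟨_, rfl⟩
  have hFm0 : 0 < Fm := by rw [hFm]; positivity
  obtain ⟨r, hr⟩ : ∃ z : ℝ, z = θ ^ (-(n : ℝ)) := ⟨_, rfl⟩
  have hr0 : 0 < r := by rw [hr]; positivity
  have hr1 : r < 1 := hr ▸ Real.rpow_lt_one_of_one_lt_of_neg hθ (by linarith)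
  obtain ⟨t, ht⟩ : ∃ z : ℝ, z = min τ ((1 - r) * v₀ / Fm) := ⟨_, rfl⟩
  have ht0 : 0 < t := ht ▸ lt_min hτ (div_pos (mul_pos (by linarith) hv₀) hFm0)
  have htF : t * Fm ≤ (1 - r) * v₀ := (le_div_iff₀ hFm0).1 (ht ▸ min_le_right _ _)
  filter_upwards [Ioc_mem_nhdsGT (show (0 : ℝ) < κ / (2 * (M * C + 1 / t + 1)) by positivity)]
    with δ hδ u hmin
  obtain ⟨hu, hPu, hVu, hgu, hopt⟩ := hmin
  rw [← hα] at hopt
  obtain ⟨u', hu', hper, hvol, hgap⟩ := hvar t u ht0 (ht ▸ min_le_left _ _) hu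
  rw [rowInteg_eq h hK hu _ c hW]
  obtain ⟨F, hF⟩ : ∃ z : ℝ,
      z = ∫ y, max (-normalPart G D c u y) 0 * W y * dens G y := ⟨_, rfl⟩
  rw [← hF] at hvol ⊢
  have i0 : Integrable fun y => conorm G y (cd u y) * dens G y := by
    simpa using h.integrable_mul_conorm hK hu (continuous_const (y := (1 : ℝ)))
  have hzero : ∀ y ∉ K, normalPart G D c u y = 0 := fun y hy => by
    simp [normalPart, pairing, cd_eq_zero_of_notMem fun hs => hy (hu.2.1 hs)]
  have hF0 : 0 ≤ F := hF ▸ integral_nonneg fun y => by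
    simp only [Pi.zero_apply]
    by_cases hy : y ∈ K
    · exact mul_nonneg (mul_nonneg (le_max_right _ _) (hWK y hy).le) (h.dens_pos y).le
    · simp [hzero y hy]
  have hFle : F ≤ Bw * P₀ := by
    refine (hF ▸ integral_mono (integrable_outflux h hK hu c hW.continuous) (i0.const_mul Bw)
      fun y => ?_).trans (by
        rw [integral_const_mul]; exact mul_le_mul_of_nonneg_left hPu hBw0)
    simp only
    by_cases hy : y ∈ K
    · rw [← mul_assoc]
      refine mul_le_mul_of_nonneg_right ?_ (h.dens_pos y).le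
      calc max (-normalPart G D c u y) 0 * W y
          ≤ conorm G y (cd u y) * √(2 * D c y) * W y :=
            mul_le_mul_of_nonneg_right (outflux_le h c y _) (hWK y hy).le
        _ = conorm G y (cd u y) * (W y * √(2 * D c y)) := by ring
        _ ≤ _ := by
            rw [mul_comm Bw]
            exact mul_le_mul_of_nonneg_left (hBw y hy) (conorm_nonneg _ _)
    · rw [hzero y hy]
      simpa using mul_nonneg hBw0 (mul_nonneg (conorm_nonneg y (cd u y)) (h.dens_pos y).le)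
  have hP := h.per_nonneg u
  obtain ⟨V, hV⟩ : ∃ z : ℝ, z = vol G u := ⟨_, rfl⟩
  rw [← hV] at hVu hvol hopt ⊢
  have hV0 : 0 < V := hv₀.trans_le hVu
  obtain ⟨d, hd⟩ : ∃ z : ℝ, z = t * F + t * e * per G u := ⟨_, rfl⟩
  have hd0 : 0 ≤ d := by rw [hd]; positivity
  have hdle : d ≤ (1 - r) * V := by
    have h1 : d ≤ t * Fm := by
      rw [hd, hFm]
      have h2 := mul_le_mul_of_nonneg_left hFle ht0.le
      have h3 := mul_le_mul_of_nonneg_left hPu (mul_nonneg ht0.le he0.le)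
      linarith
    exact h1.trans (htF.trans (mul_le_mul_of_nonneg_left hVu (by linarith)))
  have hrV : 0 < r * V := mul_pos hr0 hV0
  obtain ⟨hh, hhh⟩ : ∃ z : ℝ, z = l * α * θ * V ^ (α - 1) := ⟨_, rfl⟩
  have hh0 : 0 < hh := by rw [hhh]; positivity
  have hhmax' : hh ≤ hmax := by
    rw [hhh, hhmax]
    exact mul_le_mul_of_nonneg_left (Real.rpow_le_rpow_of_nonpos hv₀ hVu (by linarith))
      (by positivity)
  rw [← hhh]
  have hb' : l * α * (V - d) ^ (α - 1) ≤ hh := by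
    have h1 : (V - d) ^ (α - 1) ≤ (r * V) ^ (α - 1) :=
      Real.rpow_le_rpow_of_nonpos hrV (by linarith) (by linarith)
    rw [Real.mul_rpow hr0.le hV0.le, hr, ← Real.rpow_mul hθ0.le,
      show -(n : ℝ) * (α - 1) = 1 by rw [hα]; field_simp; ring, Real.rpow_one] at h1
    calc l * α * (V - d) ^ (α - 1) ≤ l * α * (θ * V ^ (α - 1)) :=
          mul_le_mul_of_nonneg_left h1 (by positivity)
      _ = hh := by rw [hhh]; ring
  exact (stationary_scalar hd0 (show d < V by linarith) hd hvol hα0.le hα1 hl.le hM hC ht0 he0.le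
    hP hPu hb' hh0.le hhmax' hgu hper hgap (hopt u' hu')).trans
      (error_le hκ hP₀ hmax0 (mul_nonneg hM hC) ht0 hδ.1 he hδ.2)

lemma pairing_sub_left (y ξ ξ' η : Fin n → ℝ) :
    pairing G y (ξ - ξ') η = pairing G y ξ η - pairing G y ξ' η := by
  simp [pairing, sub_dotProduct]

lemma pairing_sub_right (y ξ η η' : Fin n → ℝ) :
    pairing G y ξ (η - η') = pairing G y ξ η - pairing G y ξ η' := by
  simp [pairing, mulVec_sub, dotProduct_sub]

/-- The change of a product of pairings. -/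
lemma abs_pairing_sub_le (h : IsCH G D) (y a a₀ b b₀ : Fin n → ℝ) :
    |pairing G y a b - pairing G y a₀ b₀| ≤
      conorm G y (a - a₀) * conorm G y b + conorm G y a₀ * conorm G y (b - b₀) := by
  have e : pairing G y a b - pairing G y a₀ b₀ =
      pairing G y (a - a₀) b + pairing G y a₀ (b - b₀) := by
    rw [pairing_sub_left, pairing_sub_right]; ring
  rw [e]
  exact (abs_add_le _ _).trans (add_le_add (h.abs_pairing_le _ _ _) (h.abs_pairing_le _ _ _))

lemma abs_pairing_mul_sub_le (h : IsCH G D) (y ξ a a₀ b b₀ : Fin n → ℝ) :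
    |pairing G y ξ b * pairing G y ξ a / conorm G y ξ -
        pairing G y ξ b₀ * pairing G y ξ a₀ / conorm G y ξ| ≤
      (conorm G y (a - a₀) * conorm G y b + conorm G y a₀ * conorm G y (b - b₀)) *
        conorm G y ξ := by
  obtain ⟨k, hk⟩ : ∃ k, k = conorm G y ξ := ⟨_, rfl⟩
  rw [← hk]
  rcases eq_or_lt_of_le (hk ▸ conorm_nonneg (G := G) y ξ : 0 ≤ k) with h0 | h0
  · simp [← h0]
  rw [← sub_div, abs_div, abs_of_pos h0, div_le_iff₀ h0]
  have e : pairing G y ξ b * pairing G y ξ a - pairing G y ξ b₀ * pairing G y ξ a₀ =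
      pairing G y ξ b * pairing G y ξ (a - a₀) + pairing G y ξ (b - b₀) * pairing G y ξ a₀ := by
    rw [pairing_sub_right, pairing_sub_right]; ring
  have hb := h.abs_pairing_le y ξ b
  have ha := h.abs_pairing_le y ξ (a - a₀)
  have hb' := h.abs_pairing_le y ξ (b - b₀)
  have ha' := h.abs_pairing_le y ξ a₀
  rw [← hk] at hb ha hb' ha'
  rw [e]
  refine (abs_add_le _ _).trans ?_
  rw [abs_mul, abs_mul]
  have n1 := conorm_nonneg (G := G) y b
  have n2 := conorm_nonneg (G := G) y (b - b₀)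
  refine (add_le_add (mul_le_mul hb ha (abs_nonneg _) (mul_nonneg h0.le n1))
    (mul_le_mul hb' ha' (abs_nonneg _) (mul_nonneg h0.le n2))).trans (le_of_eq ?_)
  ring

/-- The distance of two weights at two centres at a point. -/
def gapW (G : (Fin n → ℝ) → Matrix (Fin n) (Fin n) ℝ) (hmax : ℝ) (y : Fin n → ℝ) (w w₀ : ℝ)
    (a a₀ b b₀ : Fin n → ℝ) : ℝ :=
  ((n : ℝ) + 1) * |w - w₀| +
    2 * (conorm G y (a - a₀) * conorm G y b + conorm G y a₀ * conorm G y (b - b₀)) +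
    hmax * (conorm G y (b - b₀) * |w| + conorm G y b₀ * |w - w₀|)

lemma abs_rowDens_sub_le (h : IsCH G D) {hh hmax : ℝ} (hh0 : 0 ≤ hh) (hhmax : hh ≤ hmax)
    (c c₀ : Fin n → ℝ) (W W₀ : (Fin n → ℝ) → ℝ) (y ξ : Fin n → ℝ) :
    |rowDens G D hh c W y ξ - rowDens G D hh c₀ W₀ y ξ| ≤
      gapW G hmax y (W y) (W₀ y) (cd W y) (cd W₀ y) (cd (D c) y) (cd (D c₀) y) * conorm G y ξ := by
  obtain ⟨b, hb⟩ : ∃ z, z = cd (D c) y := ⟨_, rfl⟩
  obtain ⟨b₀, hb₀⟩ : ∃ z, z = cd (D c₀) y := ⟨_, rfl⟩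
  obtain ⟨a, ha⟩ : ∃ z, z = cd W y := ⟨_, rfl⟩
  obtain ⟨a₀, ha₀⟩ : ∃ z, z = cd W₀ y := ⟨_, rfl⟩
  obtain ⟨k, hk⟩ : ∃ z, z = conorm G y ξ := ⟨_, rfl⟩
  have hk0 : 0 ≤ k := hk ▸ conorm_nonneg _ _
  have h1 := abs_pairing_sub_le h y a a₀ b b₀
  have h2 := abs_pairing_mul_sub_le h y ξ a a₀ b b₀
  have hcn : |(n : ℝ) - 1| ≤ (n : ℝ) + 1 := abs_le.2
    ⟨by linarith [(Nat.cast_nonneg n : (0 : ℝ) ≤ n)], by linarith⟩
  have h3 : |max (-pairing G y ξ b) 0 * W y - max (-pairing G y ξ b₀) 0 * W₀ y| ≤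
      k * (conorm G y (b - b₀) * |W y| + conorm G y b₀ * |W y - W₀ y|) := by
    have e : max (-pairing G y ξ b) 0 * W y - max (-pairing G y ξ b₀) 0 * W₀ y =
        (max (-pairing G y ξ b) 0 - max (-pairing G y ξ b₀) 0) * W y +
          max (-pairing G y ξ b₀) 0 * (W y - W₀ y) := by ring
    rw [e]
    refine (abs_add_le _ _).trans ?_
    rw [abs_mul, abs_mul, mul_add, ← mul_assoc, ← mul_assoc]
    refine add_le_add (mul_le_mul_of_nonneg_right ((abs_max_sub_max_le_abs _ _ _).trans ?_)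
      (abs_nonneg _)) (mul_le_mul_of_nonneg_right ?_ (abs_nonneg _))
    · rw [neg_sub_neg, abs_sub_comm, ← pairing_sub_right, hk]
      exact h.abs_pairing_le y ξ _
    · rw [abs_of_nonneg (le_max_right _ _), hk]
      exact max_le ((neg_le_abs _).trans (h.abs_pairing_le y ξ _))
        (mul_nonneg (conorm_nonneg _ _) (conorm_nonneg _ _))
  simp only [rowDens, varW, gapW, ← hb, ← hb₀, ← ha, ← ha₀, ← hk] at h2 ⊢
  obtain ⟨A, hA⟩ : ∃ z, z = ((n : ℝ) - 1) * W y + pairing G y a b := ⟨_, rfl⟩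
  obtain ⟨A₀, hA₀⟩ : ∃ z, z = ((n : ℝ) - 1) * W₀ y + pairing G y a₀ b₀ := ⟨_, rfl⟩
  have h4 : |A - A₀| ≤ ((n : ℝ) + 1) * |W y - W₀ y| +
      (conorm G y (a - a₀) * conorm G y b + conorm G y a₀ * conorm G y (b - b₀)) := by
    have e : A - A₀ = ((n : ℝ) - 1) * (W y - W₀ y) +
        (pairing G y a b - pairing G y a₀ b₀) := by rw [hA, hA₀]; ring
    rw [e]
    refine (abs_add_le _ _).trans (add_le_add ?_ h1)
    rw [abs_mul]
    exact mul_le_mul_of_nonneg_right hcn (abs_nonneg _)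
  rw [← hA, ← hA₀]
  have h5 := mul_le_mul_of_nonneg_right h4 hk0
  have h6 : |hh * (max (-pairing G y ξ b) 0 * W y) - hh * (max (-pairing G y ξ b₀) 0 * W₀ y)| ≤
      hmax * (k * (conorm G y (b - b₀) * |W y| + conorm G y b₀ * |W y - W₀ y|)) := by
    rw [← mul_sub, abs_mul, abs_of_nonneg hh0]
    exact mul_le_mul hhmax h3 (abs_nonneg _) (hh0.trans hhmax)
  have h7 : |A * k - A₀ * k| = |A - A₀| * k := by rw [← sub_mul, abs_mul, abs_of_nonneg hk0]
  rw [← h7] at h5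
  rw [abs_le]
  constructor <;> linarith [(abs_le.1 h2).1, (abs_le.1 h2).2, (abs_le.1 h5).1, (abs_le.1 h5).2,
    (abs_le.1 h6).1, (abs_le.1 h6).2]

/-- The row, uniform over a compact family. -/
theorem family_row (hn : 2 ≤ n) (h : IsCH G D) (o : Fin n → ℝ) {R P₀ v₀ l M θ κ α : ℝ}
    (hP₀ : 0 ≤ P₀) (hv₀ : 0 < v₀) (hl : 0 < l) (hM : 0 ≤ M) (hθ : 1 < θ) (hκ : 0 < κ)
    (hα : α = ((n : ℝ) - 1) / n) {X : Type*} [TopologicalSpace X] {S : Set X} (hS : IsCompact S)
    {c : X → Fin n → ℝ} (hc : Continuous c) {W : X → (Fin n → ℝ) → ℝ}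
    (hW : ∀ z, ContDiff ℝ 1 (W z)) (hWc : Continuous fun q : X × (Fin n → ℝ) => W q.1 q.2)
    (hdW : Continuous fun q : X × (Fin n → ℝ) => cd (W q.1) q.2)
    (hmem : ∀ z ∈ S, D o (c z) ≤ R ∧ ∀ y, D o y ≤ R + 1 → 0 < W z y) :
    ∀ᶠ δ in 𝓝[>] (0 : ℝ), ∀ u, NearMin G D o R P₀ v₀ l M δ u → ∀ z ∈ S,
      rowInteg G D (l * α * θ * vol G u ^ (α - 1)) (c z) (W z) u ≤ κ := by
  set K : Set (Fin n → ℝ) := {y | D o y ≤ R}
  have hK : IsCompact K := h.proper o R
  have hn2 : (2 : ℝ) ≤ n := by exact_mod_cast hn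
  have hα0 : 0 < α := by rw [hα]; exact div_pos (by linarith) (by linarith)
  have hα1 : α ≤ 1 := by rw [hα, div_le_one (by linarith)]; linarith
  have hθ0 : 0 < θ := by linarith
  obtain ⟨hmax, hhmax⟩ : ∃ z : ℝ, z = l * α * θ * v₀ ^ (α - 1) := ⟨_, rfl⟩
  obtain ⟨η, hη⟩ : ∃ z : ℝ, z = κ / (2 * (P₀ + 1)) := ⟨_, rfl⟩
  have hη0 : 0 < η := by rw [hη]; positivity
  rw [eventually_nhdsWithin_iff]
  refine (hS.eventually_forall_of_forall_eventually (x₀ := (0 : ℝ)) (P := fun δ z =>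
    0 < δ → z ∈ S → ∀ u, NearMin G D o R P₀ v₀ l M δ u →
      rowInteg G D (l * α * θ * vol G u ^ (α - 1)) (c z) (W z) u ≤ κ) fun z₀ hz₀ => ?_).mono
    fun δ hδ hpos u hu z hz => hδ z hz hpos hz u hu
  have hnode := eventually_nhdsWithin_iff.1 (node_out hn h o hP₀ hv₀ hl hM hθ (half_pos hκ) hα
    (hmem z₀ hz₀).1 (hW z₀) (hmem z₀ hz₀).2)
  obtain ⟨g, hg⟩ : ∃ g : X × (Fin n → ℝ) → ℝ, g = fun q => gapW G hmax q.2 (W q.1 q.2) (W z₀ q.2)
      (cd (W q.1) q.2) (cd (W z₀) q.2) (cd (D (c q.1)) q.2) (cd (D (c z₀)) q.2) := ⟨_, rfl⟩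
  have hgc : Continuous g := by
    rw [hg]
    have hy : Continuous fun q : X × (Fin n → ℝ) => q.2 := continuous_snd
    have hb : Continuous fun q : X × (Fin n → ℝ) => cd (D (c q.1)) q.2 :=
      (contDiff_logCovector h).continuous.comp (hy.prodMk (hc.comp continuous_fst))
    have hb0 : Continuous fun q : X × (Fin n → ℝ) => cd (D (c z₀)) q.2 :=
      (continuous_cd_dist h _).comp hy
    have ha0 : Continuous fun q : X × (Fin n → ℝ) => cd (W z₀) q.2 :=
      (continuous_cd (hW z₀)).comp hy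
    have hw0 : Continuous fun q : X × (Fin n → ℝ) => W z₀ q.2 := (hW z₀).continuous.comp hy
    have hN : ∀ {f : X × (Fin n → ℝ) → Fin n → ℝ}, Continuous f →
        Continuous fun q => conorm G q.2 (f q) := fun hf => h.continuous_conorm.comp (hy.prodMk hf)
    unfold gapW
    exact ((continuous_const.mul (hWc.sub hw0).abs).add (continuous_const.mul
      (((hN (hdW.sub ha0)).mul (hN hb)).add ((hN ha0).mul (hN (hb.sub hb0)))))).add
      (continuous_const.mul (((hN (hb.sub hb0)).mul hWc.abs).add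
        ((hN hb0).mul (hWc.sub hw0).abs)))
  have hnear : ∀ᶠ z in 𝓝 z₀, ∀ y ∈ K, g (z, y) < η :=
    hK.eventually_forall_of_forall_eventually (P := fun z y => g (z, y) < η) fun y _ =>
      (hgc.tendsto (z₀, y)).eventually (Iio_mem_nhds (by simp [hg, gapW, conorm_zero, hη0]))
  rw [nhds_prod_eq]
  filter_upwards [hnode.prod_mk hnear] with q ⟨hq1, hq2⟩ hpos _ u hmin
  obtain ⟨hu, hPu, hVu, -, -⟩ := id hmin
  have hV0 : 0 < vol G u := hv₀.trans_le hVu
  obtain ⟨hh, hhh⟩ : ∃ z : ℝ, z = l * α * θ * vol G u ^ (α - 1) := ⟨_, rfl⟩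
  have hh0 : 0 ≤ hh := by rw [hhh]; positivity
  have hhle : hh ≤ hmax := by
    rw [hhh, hhmax]
    exact mul_le_mul_of_nonneg_left (Real.rpow_le_rpow_of_nonpos hv₀ hVu (by linarith))
      (by positivity)
  have h0 := hq1 hpos u hmin
  rw [← hhh] at h0 ⊢
  have i0 : Integrable fun y => conorm G y (cd u y) * dens G y := by
    simpa using h.integrable_mul_conorm hK hu (continuous_const (y := (1 : ℝ)))
  have h1 : rowInteg G D hh (c q.2) (W q.2) u ≤
      rowInteg G D hh (c z₀) (W z₀) u + η * per G u := by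
    rw [rowInteg, rowInteg, per, ← integral_const_mul,
      ← integral_add (integrable_rowDens h hK hu _ _ (hW z₀)) (i0.const_mul η)]
    refine integral_mono (integrable_rowDens h hK hu _ _ (hW q.2))
      ((integrable_rowDens h hK hu _ _ (hW z₀)).add (i0.const_mul η)) fun y => ?_
    simp only
    rw [← mul_assoc, ← add_mul]
    refine mul_le_mul_of_nonneg_right ?_ (h.dens_pos y).le
    by_cases hy : y ∈ K
    · have h2 := abs_rowDens_sub_le h hh0 hhle (c q.2) (c z₀) (W q.2) (W z₀) y (cd u y)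
      have h3 := mul_le_mul_of_nonneg_right (show gapW G hmax y (W q.2 y) (W z₀ y) (cd (W q.2) y)
        (cd (W z₀) y) (cd (D (c q.2)) y) (cd (D (c z₀)) y) ≤ η by
          have := hq2 y hy; rw [hg] at this; exact this.le) (conorm_nonneg (G := G) y (cd u y))
      linarith [(abs_le.1 h2).2]
    · have e : cd u y = 0 := cd_eq_zero_of_notMem fun hs => hy (hu.2.1 hs)
      simp [rowDens, e, varW_zero, pairing, conorm_zero]
  have h4 : η * per G u ≤ κ / 2 := by
    refine (mul_le_mul_of_nonneg_left hPu hη0.le).trans ?_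
    rw [hη, div_mul_eq_mul_div, div_le_iff₀ (by positivity)]
    nlinarith
  linarith

end Vale.Agent.P219.CH.Dir
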