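import Vale.Agent.P219.Dir.BendField
import Vale.Agent.P219.Dir.Family
import Vale.Agent.P219.Bend.GainNode

/-!
# P219: the row of a continuous family in curvature at most `-b ^ 2`, against a profile
-/

noncomputable section

open MeasureTheory Set Filter Topology Matrix

namespace Vale.Agent.P219.CH.Dir

open Sharp Bend

variable {n : ℕ} {G : (Fin n → ℝ) → Matrix (Fin n) (Fin n) ℝ}
  {D : (Fin n → ℝ) → (Fin n → ℝ) → ℝ} {b : ℝ} {K : Set (Fin n → ℝ)} {u : (Fin n → ℝ) → ℝ}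

/-- The integrand of the first variation along `W ∇ D c` with mean curvature `hh`. -/
def rowDensK (G : (Fin n → ℝ) → Matrix (Fin n) (Fin n) ℝ) (D : (Fin n → ℝ) → (Fin n → ℝ) → ℝ)
    (b hh : ℝ) (c : Fin n → ℝ) (W : (Fin n → ℝ) → ℝ) (y ξ : Fin n → ℝ) : ℝ :=
  varK G D b c W y ξ - hh * (max (-pairing G y ξ (cd (D c) y)) 0 * W y)

/-- The row of a centre and a weight. -/
def rowIntegK (G : (Fin n → ℝ) → Matrix (Fin n) (Fin n) ℝ) (D : (Fin n → ℝ) → (Fin n → ℝ) → ℝ)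
    (b hh : ℝ) (c : Fin n → ℝ) (W u : (Fin n → ℝ) → ℝ) : ℝ :=
  ∫ y, rowDensK G D b hh c W y (cd u y) * dens G y

lemma integrable_varK (h : IsCH G D) (hK : IsCompact K) (hu : Comp K u) (b : ℝ) (c : Fin n → ℝ)
    {W : (Fin n → ℝ) → ℝ} (hW : ContDiff ℝ 1 W) :
    Integrable fun y => varK G D b c W y (cd u y) * dens G y := by
  have hf := continuous_fK h b c hW.continuous
  have ha := continuous_aK h b c hW
  have hg := continuous_cd_dist h c
  obtain ⟨Cv, -, hCv⟩ := exists_abs_varG_le h hf ha hg hK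
  have i0 : Integrable fun y => conorm G y (cd u y) * dens G y := by
    simpa using h.integrable_mul_conorm hK hu (continuous_const (y := (1 : ℝ)))
  refine (i0.const_mul Cv).mono'
    ((measurable_varG_cd h hf ha hg hu.1).mul h.continuous_dens.measurable).aestronglyMeasurable
    (Eventually.of_forall fun y => ?_)
  rw [Real.norm_eq_abs, abs_mul, abs_of_pos (h.dens_pos y), ← mul_assoc]
  refine mul_le_mul_of_nonneg_right ?_ (h.dens_pos y).le
  by_cases hy : y ∈ K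
  · exact hCv y hy _
  · simp [varK, cd_eq_zero_of_notMem fun hs => hy (hu.2.1 hs), varG_zero, conorm_zero]

lemma integrable_rowDensK (h : IsCH G D) (hK : IsCompact K) (hu : Comp K u) (b hh : ℝ)
    (c : Fin n → ℝ) {W : (Fin n → ℝ) → ℝ} (hW : ContDiff ℝ 1 W) :
    Integrable fun y => rowDensK G D b hh c W y (cd u y) * dens G y := by
  refine ((integrable_varK h hK hu b c hW).sub
    ((integrable_outflux h hK hu c hW.continuous).const_mul hh)).congr
      (Eventually.of_forall fun y => ?_)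
  simp only [Pi.sub_apply, rowDensK, normalPart]
  ring

lemma rowIntegK_eq (h : IsCH G D) (hK : IsCompact K) (hu : Comp K u) (b hh : ℝ) (c : Fin n → ℝ)
    {W : (Fin n → ℝ) → ℝ} (hW : ContDiff ℝ 1 W) :
    rowIntegK G D b hh c W u = (∫ y, varK G D b c W y (cd u y) * dens G y) -
      hh * ∫ y, max (-normalPart G D c u y) 0 * W y * dens G y := by
  rw [← integral_const_mul, ← integral_sub (integrable_varK h hK hu b c hW)
    ((integrable_outflux h hK hu c hW.continuous).const_mul hh), rowIntegK]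
  refine integral_congr_ae (Eventually.of_forall fun y => ?_)
  simp only [rowDensK, normalPart]
  ring

/-- The slope of a profile on the possible volumes: bounded, and stable to a factor `θ`. -/
lemma profile_slope {Φ hs : ℝ → ℝ} (hΦ : IsProfile Φ hs) {v₀ VK θ : ℝ} (hv₀ : 0 < v₀) (hθ : 1 < θ) :
    ∃ hmax ρ : ℝ, 0 < hmax ∧ 0 < ρ ∧ (∀ V, v₀ ≤ V → V ≤ VK → θ * hs V ≤ hmax) ∧
      ∀ V d, v₀ ≤ V → V ≤ VK → 0 ≤ d → d ≤ ρ → d ≤ v₀ / 2 → hs (V - d) ≤ θ * hs V := by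
  obtain ⟨W, hW⟩ : ∃ W, W = max VK v₀ := ⟨_, rfl⟩
  have hIsub : Icc (v₀ / 2) W ⊆ Ioi (0 : ℝ) := fun x hx => show 0 < x by linarith [hx.1]
  have hI : ContinuousOn hs (Icc (v₀ / 2) W) := hΦ.cont_slope.mono hIsub
  have hIne : (Icc (v₀ / 2) W).Nonempty :=
    nonempty_Icc.2 (by linarith [hW ▸ le_max_right VK v₀])
  obtain ⟨xm, hxm, hlo⟩ := isCompact_Icc.exists_isMinOn hIne hI
  obtain ⟨xM, hxM, hhi⟩ := isCompact_Icc.exists_isMaxOn hIne hI
  have hm0 : 0 < hs xm := hΦ.slope_pos _ (hIsub hxm)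
  obtain ⟨ρ, hρ, huc⟩ := Metric.uniformContinuousOn_iff.1
    (isCompact_Icc.uniformContinuousOn_of_continuous hI) ((θ - 1) * hs xm)
    (mul_pos (by linarith) hm0)
  have hin : ∀ V, v₀ ≤ V → V ≤ VK → V ∈ Icc (v₀ / 2) W := fun V h1 h2 =>
    ⟨by linarith, hW ▸ h2.trans (le_max_left _ _)⟩
  refine ⟨θ * hs xM, ρ / 2, mul_pos (by linarith) (hΦ.slope_pos _ (hIsub hxM)), half_pos hρ,
    fun V h1 h2 => mul_le_mul_of_nonneg_left (hhi (hin V h1 h2)) (by linarith),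
    fun V d h1 h2 hd0 hd1 hd2 => ?_⟩
  have hV := hin V h1 h2
  have h3 := huc (V - d) ⟨by linarith, by linarith [hV.2]⟩ V hV (by
    rw [Real.dist_eq, sub_sub_cancel_left, abs_neg, abs_of_nonneg hd0]; linarith)
  rw [Real.dist_eq] at h3
  have h4 := mul_le_mul_of_nonneg_left (hlo hV) (show 0 ≤ θ - 1 by linarith)
  have h5 := (abs_le.1 h3.le).2
  linarith

/-- The row at one centre with one weight, against a profile. -/
theorem node_out_profile (h : IsCH G D) (hb : BendCH G D b) (o : Fin n → ℝ)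
    {R P₀ v₀ M θ κ : ℝ} {Φ hs : ℝ → ℝ} (hP₀ : 0 ≤ P₀) (hv₀ : 0 < v₀) (hΦ : IsProfile Φ hs)
    (hM : 0 ≤ M) (hθ : 1 < θ) (hκ : 0 < κ) {c : Fin n → ℝ} (hc : D o c ≤ R)
    {W : (Fin n → ℝ) → ℝ} (hW : ContDiff ℝ 1 W) (hWp : ∀ y, D o y ≤ R + 1 → 0 < W y) :
    ∀ᶠ δ in 𝓝[>] (0 : ℝ), ∀ u, NearMinP G D o R P₀ v₀ Φ M δ u →
      rowIntegK G D b (θ * hs (vol G u)) c W u ≤ κ := by
  set K : Set (Fin n → ℝ) := {y | D o y ≤ R}
  have hK : IsCompact K := h.proper o R
  have hθ0 : 0 < θ := by linarith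
  have hWK : ∀ y ∈ K, 0 < W y := fun y hy => hWp y (by have : D o y ≤ R := hy; linarith)
  obtain ⟨hmax, ρ, hmax0, hρ, hhle, hstab⟩ := profile_slope hΦ (VK := volG G K) hv₀ hθ
  obtain ⟨e, he⟩ : ∃ z : ℝ, z = κ / (2 * (P₀ * (1 + hmax) + 1)) := ⟨_, rfl⟩
  have he0 : 0 < e := by rw [he]; positivity
  obtain ⟨τ, C, hτ, hC, hvar⟩ := exists_outVarB h hb o hc hW hWp he0
  obtain ⟨Bw, hBw0, hBw⟩ : ∃ B : ℝ, 0 ≤ B ∧ ∀ y ∈ K, W y * √(2 * D c y) ≤ B := by
    obtain ⟨B, hB⟩ := hK.bddAbove_image (f := fun y => W y * √(2 * D c y))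
      (hW.continuous.mul (continuous_const.mul (h.continuous_D_left c)).sqrt).continuousOn
    exact ⟨max B 0, le_max_right _ _, fun y hy => (hB ⟨y, hy, rfl⟩).trans (le_max_left _ _)⟩
  obtain ⟨Fm, hFm⟩ : ∃ z : ℝ, z = Bw * P₀ + e * P₀ + 1 := ⟨_, rfl⟩
  have hFm0 : 0 < Fm := by rw [hFm]; positivity
  obtain ⟨t, ht⟩ : ∃ z : ℝ, z = min τ (min ρ (v₀ / 2) / Fm) := ⟨_, rfl⟩
  have ht0 : 0 < t := ht ▸ lt_min hτ (div_pos (lt_min hρ (by linarith)) hFm0)
  have htF : t * Fm ≤ min ρ (v₀ / 2) := (le_div_iff₀ hFm0).1 (ht ▸ min_le_right _ _)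
  filter_upwards [Ioc_mem_nhdsGT (show (0 : ℝ) < κ / (2 * (M * C + 1 / t + 1)) by positivity)]
    with δ hδ u hmin
  obtain ⟨hu, hPu, hVu, hgu, hopt⟩ := hmin
  obtain ⟨u', hu', hper, hvol, hgap⟩ := hvar t u ht0 (ht ▸ min_le_left _ _) hu
  rw [rowIntegK_eq h hK hu _ _ c hW]
  obtain ⟨F, hF⟩ : ∃ z : ℝ,
      z = ∫ y, max (-normalPart G D c u y) 0 * W y * dens G y := ⟨_, rfl⟩
  rw [← hF] at hvol ⊢
  have i0 : Integrable fun y => conorm G y (cd u y) * dens G y := by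
    simpa using h.integrable_mul_conorm hK hu (continuous_const (y := (1 : ℝ)))
  have hzero : ∀ y ∉ K, normalPart G D c u y = 0 := fun y hy => by
    simp [normalPart, pairing, cd_eq_zero_of_notMem fun hs => hy (hu.2.1 hs)]
  have hF0 : 0 ≤ F := hF ▸ integral_nonneg fun y => by
    simp only [Pi.zero_apply]
    by_cases hy : y ∈ K
    · exact mul_nonneg (mul_nonneg (le_max_right _ _) (hWK y hy).le) (h.dens_pos y).le
    · simp [hzero y hy]
  have hFle : F ≤ Bw * P₀ := by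
    refine (hF ▸ integral_mono (integrable_outflux h hK hu c hW.continuous) (i0.const_mul Bw)
      fun y => ?_).trans (by
        rw [integral_const_mul]; exact mul_le_mul_of_nonneg_left hPu hBw0)
    simp only
    by_cases hy : y ∈ K
    · rw [← mul_assoc]
      refine mul_le_mul_of_nonneg_right ?_ (h.dens_pos y).le
      calc max (-normalPart G D c u y) 0 * W y
          ≤ conorm G y (cd u y) * √(2 * D c y) * W y :=
            mul_le_mul_of_nonneg_right (outflux_le h c y _) (hWK y hy).le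
        _ = conorm G y (cd u y) * (W y * √(2 * D c y)) := by ring
        _ ≤ _ := by
            rw [mul_comm Bw]
            exact mul_le_mul_of_nonneg_left (hBw y hy) (conorm_nonneg _ _)
    · rw [hzero y hy]
      simpa using mul_nonneg hBw0 (mul_nonneg (conorm_nonneg y (cd u y)) (h.dens_pos y).le)
  have hP := h.per_nonneg u
  have hVle := h.vol_le hK hu
  obtain ⟨V, hV⟩ : ∃ z : ℝ, z = vol G u := ⟨_, rfl⟩
  rw [← hV] at hVu hvol hopt hVle ⊢
  obtain ⟨d, hd⟩ : ∃ z : ℝ, z = t * F + t * e * per G u := ⟨_, rfl⟩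
  have hd0 : 0 ≤ d := by rw [hd]; positivity
  have hdle : d ≤ t * Fm := by
    rw [hd, hFm]
    have h2 := mul_le_mul_of_nonneg_left hFle ht0.le
    have h3 := mul_le_mul_of_nonneg_left hPu (mul_nonneg ht0.le he0.le)
    linarith
  have hd1 : d ≤ ρ := hdle.trans (htF.trans (min_le_left _ _))
  have hd2 : d ≤ v₀ / 2 := hdle.trans (htF.trans (min_le_right _ _))
  have hh0 : 0 ≤ θ * hs V := (mul_pos hθ0 (hΦ.slope_pos V (by linarith))).le
  exact (stationary_profile hΦ hd0 (show d < V by linarith) hd hvol hM hC ht0 he0.le hP hPu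
    (hstab V d hVu hVle hd0 hd1 hd2) hh0 (hhle V hVu hVle) hgu hper hgap (hopt u' hu')).trans
      (error_le hκ hP₀ hmax0 (mul_nonneg hM hC) ht0 hδ.1 he hδ.2)

/-- The distance of two data of rows at a point. -/
def gapK (G : (Fin n → ℝ) → Matrix (Fin n) (Fin n) ℝ) (hmax : ℝ) (y : Fin n → ℝ) (w w₀ f f₀ : ℝ)
    (a a₀ b b₀ : Fin n → ℝ) : ℝ :=
  |f - f₀| + 2 * (conorm G y (a - a₀) * conorm G y b + conorm G y a₀ * conorm G y (b - b₀)) +
    hmax * (conorm G y (b - b₀) * |w| + conorm G y b₀ * |w - w₀|)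

lemma abs_rowDensK_sub_le (h : IsCH G D) {hh hmax : ℝ} (hh0 : 0 ≤ hh) (hhmax : hh ≤ hmax)
    (c c₀ : Fin n → ℝ) (W W₀ : (Fin n → ℝ) → ℝ) (y ξ : Fin n → ℝ) :
    |rowDensK G D b hh c W y ξ - rowDensK G D b hh c₀ W₀ y ξ| ≤
      gapK G hmax y (W y) (W₀ y) (fK n D b c W y) (fK n D b c₀ W₀ y) (aK D b c W y)
        (aK D b c₀ W₀ y) (cd (D c) y) (cd (D c₀) y) * conorm G y ξ := by
  obtain ⟨p, hp⟩ : ∃ z, z = cd (D c) y := ⟨_, rfl⟩
  obtain ⟨p₀, hp₀⟩ : ∃ z, z = cd (D c₀) y := ⟨_, rfl⟩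
  obtain ⟨a, ha⟩ : ∃ z, z = aK D b c W y := ⟨_, rfl⟩
  obtain ⟨a₀, ha₀⟩ : ∃ z, z = aK D b c₀ W₀ y := ⟨_, rfl⟩
  obtain ⟨k, hk⟩ : ∃ z, z = conorm G y ξ := ⟨_, rfl⟩
  have hk0 : 0 ≤ k := hk ▸ conorm_nonneg _ _
  have h1 := abs_pairing_sub_le h y a a₀ p p₀
  have h2 := abs_pairing_mul_sub_le h y ξ a a₀ p p₀
  have h3 : |max (-pairing G y ξ p) 0 * W y - max (-pairing G y ξ p₀) 0 * W₀ y| ≤
      k * (conorm G y (p - p₀) * |W y| + conorm G y p₀ * |W y - W₀ y|) := by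
    have e : max (-pairing G y ξ p) 0 * W y - max (-pairing G y ξ p₀) 0 * W₀ y =
        (max (-pairing G y ξ p) 0 - max (-pairing G y ξ p₀) 0) * W y +
          max (-pairing G y ξ p₀) 0 * (W y - W₀ y) := by ring
    rw [e]
    refine (abs_add_le _ _).trans ?_
    rw [abs_mul, abs_mul, mul_add, ← mul_assoc, ← mul_assoc]
    refine add_le_add (mul_le_mul_of_nonneg_right ((abs_max_sub_max_le_abs _ _ _).trans ?_)
      (abs_nonneg _)) (mul_le_mul_of_nonneg_right ?_ (abs_nonneg _))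
    · rw [neg_sub_neg, abs_sub_comm, ← pairing_sub_right, hk]
      exact h.abs_pairing_le y ξ _
    · rw [abs_of_nonneg (le_max_right _ _), hk]
      exact max_le ((neg_le_abs _).trans (h.abs_pairing_le y ξ _))
        (mul_nonneg (conorm_nonneg _ _) (conorm_nonneg _ _))
  simp only [rowDensK, varK, varG, gapK, ← hp, ← hp₀, ← ha, ← ha₀, ← hk] at h2 ⊢
  obtain ⟨A, hA⟩ : ∃ z, z = fK n D b c W y + pairing G y a p := ⟨_, rfl⟩
  obtain ⟨A₀, hA₀⟩ : ∃ z, z = fK n D b c₀ W₀ y + pairing G y a₀ p₀ := ⟨_, rfl⟩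
  have h4 : |A - A₀| ≤ |fK n D b c W y - fK n D b c₀ W₀ y| +
      (conorm G y (a - a₀) * conorm G y p + conorm G y a₀ * conorm G y (p - p₀)) := by
    have e : A - A₀ = (fK n D b c W y - fK n D b c₀ W₀ y) +
        (pairing G y a p - pairing G y a₀ p₀) := by rw [hA, hA₀]; ring
    rw [e]
    exact (abs_add_le _ _).trans (add_le_add le_rfl h1)
  rw [← hA, ← hA₀]
  have h5 := mul_le_mul_of_nonneg_right h4 hk0
  have h6 : |hh * (max (-pairing G y ξ p) 0 * W y) - hh * (max (-pairing G y ξ p₀) 0 * W₀ y)| ≤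
      hmax * (k * (conorm G y (p - p₀) * |W y| + conorm G y p₀ * |W y - W₀ y|)) := by
    rw [← mul_sub, abs_mul, abs_of_nonneg hh0]
    exact mul_le_mul hhmax h3 (abs_nonneg _) (hh0.trans hhmax)
  have h7 : |A * k - A₀ * k| = |A - A₀| * k := by rw [← sub_mul, abs_mul, abs_of_nonneg hk0]
  rw [← h7] at h5
  rw [abs_le]
  constructor <;> linarith [(abs_le.1 h2).1, (abs_le.1 h2).2, (abs_le.1 h5).1, (abs_le.1 h5).2,
    (abs_le.1 h6).1, (abs_le.1 h6).2]

/-- The row, uniform over a compact family. -/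
theorem family_row_profile (h : IsCH G D) (hb : BendCH G D b) (o : Fin n → ℝ)
    {R P₀ v₀ M θ κ : ℝ} {Φ hs : ℝ → ℝ} (hP₀ : 0 ≤ P₀) (hv₀ : 0 < v₀) (hΦ : IsProfile Φ hs)
    (hM : 0 ≤ M) (hθ : 1 < θ) (hκ : 0 < κ) {X : Type*} [TopologicalSpace X] {S : Set X}
    (hS : IsCompact S) {c : X → Fin n → ℝ} (hc : Continuous c) {W : X → (Fin n → ℝ) → ℝ}
    (hW : ∀ z, ContDiff ℝ 1 (W z)) (hWc : Continuous fun q : X × (Fin n → ℝ) => W q.1 q.2)
    (hdW : Continuous fun q : X × (Fin n → ℝ) => cd (W q.1) q.2)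
    (hmem : ∀ z ∈ S, D o (c z) ≤ R ∧ ∀ y, D o y ≤ R + 1 → 0 < W z y) :
    ∀ᶠ δ in 𝓝[>] (0 : ℝ), ∀ u, NearMinP G D o R P₀ v₀ Φ M δ u → ∀ z ∈ S,
      rowIntegK G D b (θ * hs (vol G u)) (c z) (W z) u ≤ κ := by
  set K : Set (Fin n → ℝ) := {y | D o y ≤ R}
  have hK : IsCompact K := h.proper o R
  have hθ0 : 0 < θ := by linarith
  obtain ⟨hmax, ρ, hmax0, -, hhle, -⟩ := profile_slope hΦ (VK := volG G K) hv₀ hθ
  obtain ⟨η, hη⟩ : ∃ z : ℝ, z = κ / (2 * (P₀ + 1)) := ⟨_, rfl⟩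
  have hη0 : 0 < η := by rw [hη]; positivity
  rw [eventually_nhdsWithin_iff]
  refine (hS.eventually_forall_of_forall_eventually (x₀ := (0 : ℝ)) (P := fun δ z =>
    0 < δ → z ∈ S → ∀ u, NearMinP G D o R P₀ v₀ Φ M δ u →
      rowIntegK G D b (θ * hs (vol G u)) (c z) (W z) u ≤ κ) fun z₀ hz₀ => ?_).mono
    fun δ hδ hpos u hu z hz => hδ z hz hpos hz u hu
  have hnode := eventually_nhdsWithin_iff.1 (node_out_profile h hb o hP₀ hv₀ hΦ hM hθ (half_pos hκ)
    (hmem z₀ hz₀).1 (hW z₀) (hmem z₀ hz₀).2)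
  obtain ⟨g, hg⟩ : ∃ g : X × (Fin n → ℝ) → ℝ, g = fun q => gapK G hmax q.2 (W q.1 q.2) (W z₀ q.2)
      (fK n D b (c q.1) (W q.1) q.2) (fK n D b (c z₀) (W z₀) q.2) (aK D b (c q.1) (W q.1) q.2)
      (aK D b (c z₀) (W z₀) q.2) (cd (D (c q.1)) q.2) (cd (D (c z₀)) q.2) := ⟨_, rfl⟩
  have hgc : Continuous g := by
    rw [hg]
    have hy : Continuous fun q : X × (Fin n → ℝ) => q.2 := continuous_snd
    have hb1 : Continuous fun q : X × (Fin n → ℝ) => cd (D (c q.1)) q.2 :=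
      (contDiff_logCovector h).continuous.comp (hy.prodMk (hc.comp continuous_fst))
    have hb0 : Continuous fun q : X × (Fin n → ℝ) => cd (D (c z₀)) q.2 :=
      (continuous_cd_dist h _).comp hy
    have hD : Continuous fun q : X × (Fin n → ℝ) => D (c q.1) q.2 :=
      h.continuous_D.comp ((hc.comp continuous_fst).prodMk continuous_snd)
    have hcd : ∀ {f : ℝ → ℝ}, (∀ t, 0 ≤ t → ContinuousAt f t) →
        Continuous fun q : X × (Fin n → ℝ) => f (D (c q.1) q.2) := fun hf =>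
      continuous_iff_continuousAt.2 fun q =>
        (hf _ (h.dist_nonneg _ _)).comp_of_eq hD.continuousAt rfl
    have hf1 : Continuous fun q : X × (Fin n → ℝ) => fK n D b (c q.1) (W q.1) q.2 :=
      (continuous_const.mul (hcd fun _ => continuousAt_cfac b)).mul hWc
    have hf0 : Continuous fun q : X × (Fin n → ℝ) => fK n D b (c z₀) (W z₀) q.2 :=
      (continuous_fK h b (c z₀) (hW z₀).continuous).comp hy
    have ha1 : Continuous fun q : X × (Fin n → ℝ) => aK D b (c q.1) (W q.1) q.2 :=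
      hdW.add (((hcd fun _ => continuousAt_efac b).mul hWc).neg.smul hb1)
    have ha0 : Continuous fun q : X × (Fin n → ℝ) => aK D b (c z₀) (W z₀) q.2 :=
      (continuous_aK h b (c z₀) (hW z₀)).comp hy
    have hw0 : Continuous fun q : X × (Fin n → ℝ) => W z₀ q.2 := (hW z₀).continuous.comp hy
    have hN : ∀ {f : X × (Fin n → ℝ) → Fin n → ℝ}, Continuous f →
        Continuous fun q => conorm G q.2 (f q) := fun hf => h.continuous_conorm.comp (hy.prodMk hf)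
    unfold gapK
    exact ((hf1.sub hf0).abs.add (continuous_const.mul
      (((hN (ha1.sub ha0)).mul (hN hb1)).add ((hN ha0).mul (hN (hb1.sub hb0)))))).add
      (continuous_const.mul (((hN (hb1.sub hb0)).mul hWc.abs).add
        ((hN hb0).mul (hWc.sub hw0).abs)))
  have hnear : ∀ᶠ z in 𝓝 z₀, ∀ y ∈ K, g (z, y) < η :=
    hK.eventually_forall_of_forall_eventually (P := fun z y => g (z, y) < η) fun y _ =>
      (hgc.tendsto (z₀, y)).eventually (Iio_mem_nhds (by simp [hg, gapK, conorm_zero, hη0]))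
  rw [nhds_prod_eq]
  filter_upwards [hnode.prod_mk hnear] with q ⟨hq1, hq2⟩ hpos _ u hmin
  obtain ⟨hu, hPu, hVu, -, -⟩ := id hmin
  have hVle := h.vol_le hK hu
  obtain ⟨hh, hhh⟩ : ∃ z : ℝ, z = θ * hs (vol G u) := ⟨_, rfl⟩
  have hh0 : 0 ≤ hh := hhh ▸ (mul_pos hθ0 (hΦ.slope_pos _ (hv₀.trans_le hVu))).le
  have hhmax : hh ≤ hmax := hhh ▸ hhle _ hVu hVle
  have h0 := hq1 hpos u hmin
  rw [← hhh] at h0 ⊢
  have i0 : Integrable fun y => conorm G y (cd u y) * dens G y := by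
    simpa using h.integrable_mul_conorm hK hu (continuous_const (y := (1 : ℝ)))
  have h1 : rowIntegK G D b hh (c q.2) (W q.2) u ≤
      rowIntegK G D b hh (c z₀) (W z₀) u + η * per G u := by
    rw [rowIntegK, rowIntegK, per, ← integral_const_mul,
      ← integral_add (integrable_rowDensK h hK hu _ _ _ (hW z₀)) (i0.const_mul η)]
    refine integral_mono (integrable_rowDensK h hK hu _ _ _ (hW q.2))
      ((integrable_rowDensK h hK hu _ _ _ (hW z₀)).add (i0.const_mul η)) fun y => ?_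
    simp only
    rw [← mul_assoc, ← add_mul]
    refine mul_le_mul_of_nonneg_right ?_ (h.dens_pos y).le
    by_cases hy : y ∈ K
    · have h2 := abs_rowDensK_sub_le (b := b) h hh0 hhmax (c q.2) (c z₀) (W q.2) (W z₀) y (cd u y)
      have h3 := mul_le_mul_of_nonneg_right (show gapK G hmax y (W q.2 y) (W z₀ y)
        (fK n D b (c q.2) (W q.2) y) (fK n D b (c z₀) (W z₀) y) (aK D b (c q.2) (W q.2) y)
        (aK D b (c z₀) (W z₀) y) (cd (D (c q.2)) y) (cd (D (c z₀)) y) ≤ η by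
          have := hq2 y hy; rw [hg] at this; exact this.le) (conorm_nonneg (G := G) y (cd u y))
      linarith [(abs_le.1 h2).2]
    · have e : cd u y = 0 := cd_eq_zero_of_notMem fun hs => hy (hu.2.1 hs)
      simp [rowDensK, varK, e, varG_zero, pairing, conorm_zero]
  have h4 : η * per G u ≤ κ / 2 := by
    refine (mul_le_mul_of_nonneg_left hPu hη0.le).trans ?_
    rw [hη, div_mul_eq_mul_div, div_le_iff₀ (by positivity)]
    nlinarith
  linarith

end Vale.Agent.P219.CH.Dir
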