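import Vale.Agent.P219.Sharp.Var

/-!
# P219: the volume lost by a step is at most the outward flux
-/

noncomputable section

open MeasureTheory Set Filter Topology Matrix

namespace Vale.Agent.P219.CH.Dir

open Sharp

variable {n : ℕ} {G : (Fin n → ℝ) → Matrix (Fin n) (Fin n) ℝ}
  {D : (Fin n → ℝ) → (Fin n → ℝ) → ℝ} {K : Set (Fin n → ℝ)} {Z : (Fin n → ℝ) → Fin n → ℝ}

/-- The outward flux after a step is close to the outward flux. -/
theorem exists_outflux_field (h : IsCH G D) (hK : IsCompact K) (hZ : ContDiff ℝ 1 Z) {e : ℝ}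
    (he : 0 < e) :
    ∃ τ : ℝ, 0 < τ ∧ ∀ t ∈ Icc 0 τ, ∀ y ∈ K, ∀ ξ : Fin n → ℝ,
      max (-(ξ ⬝ᵥ Z y)) 0 * dens G y ≤
        (1 + t • opMat (fderiv ℝ Z y)).det * dens G (y + t • Z y) *
          (max (-(ξ ⬝ᵥ Z (y + t • Z y))) 0 + e * conorm G (y + t • Z y) ξ) := by
  set X := (Fin n → ℝ) × (Fin n → ℝ)
  set P : Set X := K ×ˢ Metric.sphere 0 1
  have hP : IsCompact P := hK.prod (isCompact_sphere _ _)
  set lhs : ℝ → X → ℝ := fun _ w => max (-(w.2 ⬝ᵥ Z w.1)) 0 * dens G w.1
  set rhs : ℝ → X → ℝ := fun t w => (1 + t • opMat (fderiv ℝ Z w.1)).det *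
      dens G (w.1 + t • Z w.1) *
      (max (-(w.2 ⬝ᵥ Z (w.1 + t • Z w.1))) 0 + e * conorm G (w.1 + t • Z w.1) w.2)
  have hy : Continuous fun a : ℝ × X => a.2.1 := continuous_fst.comp continuous_snd
  have hξ : Continuous fun a : ℝ × X => a.2.2 := continuous_snd.comp continuous_snd
  have hv : Continuous fun a : ℝ × X => Z a.2.1 := hZ.continuous.comp hy
  have hz : Continuous fun a : ℝ × X => a.2.1 + a.1 • Z a.2.1 := hy.add (continuous_fst.smul hv)
  have hl : Continuous (Function.uncurry lhs) :=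
    ((hξ.dotProduct hv).neg.max continuous_const).mul (h.continuous_dens.comp hy)
  have hr : Continuous (Function.uncurry rhs) := by
    refine ((Continuous.matrix_det ?_).mul (h.continuous_dens.comp hz)).mul
      (((hξ.dotProduct (hZ.continuous.comp hz)).neg.max continuous_const).add
        (continuous_const.mul (h.continuous_conorm.comp (hz.prodMk hξ))))
    exact continuous_const.add (continuous_fst.smul (continuous_opMat.comp
      ((hZ.continuous_fderiv one_ne_zero).comp hy)))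
  have h0 : ∀ w ∈ P, ∀ᶠ a : ℝ × X in 𝓝 ((0 : ℝ), w), lhs a.1 a.2 < rhs a.1 a.2 := by
    rintro ⟨y, ξ⟩ ⟨-, hs⟩
    refine (hl.tendsto ((0 : ℝ), (y, ξ))).eventually_lt (hr.tendsto ((0 : ℝ), (y, ξ))) ?_
    have hξ0 : ξ ≠ 0 := fun h0 => by simp [h0] at hs
    have := mul_pos (h.dens_pos y) (mul_pos he (h.conorm_pos y hξ0))
    simp only [Function.uncurry, lhs, rhs, zero_smul, add_zero, Matrix.det_one, one_mul]
    linarith
  obtain ⟨τ, hτ, hsub⟩ := Metric.eventually_nhds_iff.1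
    (hP.eventually_forall_of_forall_eventually (P := fun t w => lhs t w < rhs t w) h0)
  refine ⟨τ / 2, by positivity, fun t ht y hy ξ => ?_⟩
  rcases eq_or_ne ξ 0 with rfl | hξ0
  · simp [conorm_zero]
  have hn : 0 < ‖ξ‖ := norm_pos_iff.2 hξ0
  have hu : ‖ξ‖⁻¹ • ξ ∈ Metric.sphere (0 : Fin n → ℝ) 1 := by
    rw [mem_sphere_zero_iff_norm, norm_smul, norm_inv, norm_norm, inv_mul_cancel₀ hn.ne']
  have h1 := hsub (show dist t 0 < τ by
    rw [dist_zero_right, Real.norm_eq_abs, abs_of_nonneg ht.1]; linarith [ht.2])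
    (y, ‖ξ‖⁻¹ • ξ) ⟨hy, hu⟩
  have hk : ∀ a : ℝ, max (-(‖ξ‖⁻¹ * a)) 0 = ‖ξ‖⁻¹ * max (-a) 0 := fun a => by
    rw [mul_max_of_nonneg _ _ (inv_nonneg.2 hn.le), mul_zero, mul_neg]
  simp only [lhs, rhs, smul_dotProduct, smul_eq_mul, hk, h.conorm_smul, abs_inv, abs_norm] at h1
  refine le_of_mul_le_mul_left ?_ (inv_pos.2 hn)
  linarith

/-- The derivative of the volume along the steps. -/
lemma hasDerivAt_vol_step (h : IsCH G D) (hK : IsCompact K) (hZ : ContDiff ℝ 1 Z)
    (hZc : HasCompactSupport Z) {u : (Fin n → ℝ) → ℝ} (hu : Comp K u) (r : ℝ) :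
    HasDerivAt (fun r => vol G fun y => u (y + r • Z y))
      (∫ y, fderiv ℝ u (y + r • Z y) (Z y) * dens G y) r := by
  obtain ⟨CZ, hCZ⟩ := hZc.exists_bound_of_continuous hZ.continuous
  have hdu : Continuous (fderiv ℝ u) := hu.1.continuous_fderiv one_ne_zero
  have hduc : HasCompactSupport (fderiv ℝ u) :=
    (HasCompactSupport.intro hK fun y hy =>
      image_eq_zero_of_notMem_tsupport fun hs => hy (hu.2.1 hs)).fderiv ℝ
  obtain ⟨Cu, hCu⟩ := hduc.exists_bound_of_continuous hdu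
  have hcf : ∀ r : ℝ, Continuous fun y => u (y + r • Z y) * dens G y := fun r =>
    (hu.1.continuous.comp (continuous_id.add (hZ.continuous.const_smul r))).mul h.continuous_dens
  have hcf' : ∀ r : ℝ, Continuous fun y => fderiv ℝ u (y + r • Z y) (Z y) * dens G y := fun r =>
    ((hdu.comp (continuous_id.add (hZ.continuous.const_smul r))).clm_apply hZ.continuous).mul
      h.continuous_dens
  have hK' : IsCompact (K ∪ tsupport Z) := hK.union hZc
  have hint : Integrable fun y => u (y + r • Z y) * dens G y := by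
    refine (hcf r).integrable_of_hasCompactSupport (HasCompactSupport.intro hK' fun y hy => ?_)
    rw [Set.mem_union, not_or] at hy
    simp [image_eq_zero_of_notMem_tsupport hy.2,
      image_eq_zero_of_notMem_tsupport (fun hs => hy.1 (hu.2.1 hs))]
  have hbound : Integrable ((tsupport Z).indicator fun y => Cu * CZ * dens G y) :=
    ((continuous_const.mul h.continuous_dens).continuousOn.integrableOn_compact
      hZc).integrable_indicator (isClosed_tsupport Z).measurableSet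
  refine (hasDerivAt_integral_of_dominated_loc_of_deriv_le (μ := volume)
    (F' := fun r y => fderiv ℝ u (y + r • Z y) (Z y) * dens G y)
    (bound := (tsupport Z).indicator fun y => Cu * CZ * dens G y)
    (Metric.ball_mem_nhds r one_pos) (Eventually.of_forall fun q => (hcf q).aestronglyMeasurable)
    hint (hcf' r).aestronglyMeasurable (Eventually.of_forall fun y q _ => ?_) hbound
    (Eventually.of_forall fun y q _ => ?_)).2
  · by_cases hy : y ∈ tsupport Z
    · simp only [Set.indicator_of_mem hy, norm_mul, Real.norm_of_nonneg (h.dens_pos y).le]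
      exact mul_le_mul_of_nonneg_right (((fderiv ℝ u _).le_opNorm _).trans
        (mul_le_mul (hCu _) (hCZ y) (norm_nonneg _) ((norm_nonneg _).trans (hCu y))))
        (h.dens_pos y).le
    · simp [Set.indicator_of_notMem hy, image_eq_zero_of_notMem_tsupport hy]
  · have h1 : HasDerivAt (fun q : ℝ => y + q • Z y) (Z y) q := by
      simpa using ((hasDerivAt_id q).smul_const (Z y)).const_add y
    exact (((hu.1.differentiable one_ne_zero _).hasFDerivAt).comp_hasDerivAt q h1).mul_const _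

/-- The volume lost after a small step is at most the outward flux. -/
theorem exists_vol_step_out (h : IsCH G D) (hK : IsCompact K) (hZ : ContDiff ℝ 1 Z)
    (hZc : HasCompactSupport Z) {e : ℝ} (he : 0 < e) :
    ∃ τ : ℝ, 0 < τ ∧ ∀ t ∈ Icc 0 τ, ∀ u, Comp K u →
      vol G u - t * ((∫ y, max (-(cd u y ⬝ᵥ Z y)) 0 * dens G y) + e * per G u) ≤
        vol G (fun y => u (y + t • Z y)) := by
  set K' : Set (Fin n → ℝ) := K ∪ tsupport Z
  have hK' : IsCompact K' := hK.union hZc
  obtain ⟨B, hB⟩ := (hZc.fderiv ℝ).exists_bound_of_continuous (hZ.continuous_fderiv one_ne_zero)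
  have hB0 : 0 ≤ B := (norm_nonneg _).trans (hB 0)
  obtain ⟨τf, hτf, hflux⟩ := exists_outflux_field h hK' hZ he
  obtain ⟨τj, hτj, hdetb⟩ := exists_det_step (n := n) B
  refine ⟨min (min τf τj) (1 / (B + 1)), by positivity, fun t ht u hu => ?_⟩
  have htτ : t ≤ τf ∧ t ≤ τj ∧ t ≤ 1 / (B + 1) :=
    ⟨ht.2.trans ((min_le_left _ _).trans (min_le_left _ _)),
      ht.2.trans ((min_le_left _ _).trans (min_le_right _ _)), ht.2.trans (min_le_right _ _)⟩
  obtain ⟨S, hS⟩ : ∃ S : ℝ, S = (∫ y, max (-(cd u y ⬝ᵥ Z y)) 0 * dens G y) + e * per G u :=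
    ⟨_, rfl⟩
  have hd := hasDerivAt_vol_step h hK hZ hZc hu
  have hdu : Continuous (fderiv ℝ u) := hu.1.continuous_fderiv one_ne_zero
  have i0 : Integrable fun y => conorm G y (cd u y) * dens G y := by
    simpa using h.integrable_mul_conorm hK hu (continuous_const (y := (1 : ℝ)))
  have i1 : Integrable fun y => max (-(cd u y ⬝ᵥ Z y)) 0 * dens G y := by
    refine Continuous.integrable_of_hasCompactSupport
      ((((continuous_cd hu.1).dotProduct hZ.continuous).neg.max continuous_const).mul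
        h.continuous_dens) (HasCompactSupport.intro hK fun y hy => ?_)
    simp [cd_eq_zero_of_notMem fun hs => hy (hu.2.1 hs)]
  have hslope : ∀ r ∈ Icc 0 t, -S ≤ ∫ y, fderiv ℝ u (y + r • Z y) (Z y) * dens G y := by
    intro r hr
    have hrB : r * B < 1 := by
      calc r * B ≤ 1 / (B + 1) * B := mul_le_mul_of_nonneg_right (hr.2.trans htτ.2.2) hB0
        _ < 1 := by rw [div_mul_eq_mul_div, div_lt_one (by positivity)]; linarith
    obtain ⟨hint', hle⟩ := setIntegral_step_le hK'.measurableSet (hZ.differentiable one_ne_zero)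
      hB hr.1 hrB (fun y _ => le_trans (by norm_num)
        (hdetb r ⟨hr.1, hr.2.trans htτ.2.1⟩ _ (hB y)))
      (g := fun z => max (-(cd u z ⬝ᵥ Z z)) 0 * dens G z + e * (conorm G z (cd u z) * dens G z))
      (i1.add (i0.const_mul e))
      fun z => add_nonneg (mul_nonneg (le_max_right _ _) (h.dens_pos z).le)
        (mul_nonneg he.le (mul_nonneg (conorm_nonneg z _) (h.dens_pos z).le))
    rw [neg_le, ← integral_neg, ← setIntegral_eq_integral_of_forall_compl_eq_zero (s := K') fun y hy => by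
      rw [Set.mem_union, not_or] at hy
      simp [image_eq_zero_of_notMem_tsupport hy.2]]
    have hcf : Continuous fun y => fderiv ℝ u (y + r • Z y) (Z y) * dens G y :=
      ((hdu.comp (continuous_id.add (hZ.continuous.const_smul r))).clm_apply hZ.continuous).mul
        h.continuous_dens
    refine (setIntegral_mono_on (hcf.neg.continuousOn.integrableOn_compact hK') hint'
      hK'.measurableSet fun y hy => ?_).trans (hle.trans_eq ?_)
    · have h1 := hflux r ⟨hr.1, hr.2.trans htτ.1⟩ y hy (cd u (y + r • Z y))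
      have h2 := mul_le_mul_of_nonneg_right (le_max_left (-(cd u (y + r • Z y) ⬝ᵥ Z y)) 0)
        (h.dens_pos y).le
      simp only [Pi.neg_apply]
      rw [← cd_dotProduct, ← neg_mul]
      refine (h2.trans h1).trans (le_of_eq ?_)
      ring
    · rw [integral_add i1 (i0.const_mul e), integral_const_mul, hS]
      rfl
  have hc : ∀ r : ℝ, HasDerivAt (fun r => vol G (fun y => u (y + r • Z y)) + r * S)
      ((∫ y, fderiv ℝ u (y + r • Z y) (Z y) * dens G y) + S) r := fun r => by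
    exact (hd r).add (((hasDerivAt_id r).mul_const S).congr_deriv (one_mul S))
  have hmono : MonotoneOn (fun r => vol G (fun y => u (y + r • Z y)) + r * S) (Icc 0 t) := by
    refine monotoneOn_of_hasDerivWithinAt_nonneg (convex_Icc 0 t)
      (fun r _ => (hc r).continuousAt.continuousWithinAt) (fun r _ => (hc r).hasDerivWithinAt)
      fun r hr => ?_
    linarith [hslope r (interior_subset hr)]
  have h3 := hmono ⟨le_rfl, ht.1⟩ ⟨ht.1, le_rfl⟩ ht.1
  simp only [zero_mul, add_zero, zero_smul] at h3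
  rw [← hS]
  linarith

/-- Pulling a competitor back along `W ∇ D c`, keeping the sign of the flux. -/
def OutVar (G : (Fin n → ℝ) → Matrix (Fin n) (Fin n) ℝ) (D : (Fin n → ℝ) → (Fin n → ℝ) → ℝ)
    (o : Fin n → ℝ) (R : ℝ) (c : Fin n → ℝ) (W : (Fin n → ℝ) → ℝ) (e τ C : ℝ) : Prop :=
  ∀ t u, 0 < t → t ≤ τ → Comp {y | D o y ≤ R} u →
    ∃ u', Comp {y | D o y ≤ R} u' ∧
      per G u' ≤ per G u - t * (∫ y, varW G D c W y (cd u y) * dens G y) + t * e * per G u ∧
      vol G u - t * (∫ y, max (-normalPart G D c u y) 0 * W y * dens G y) - t * e * per G u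
        ≤ vol G u' ∧
      gap G u' ≤ (1 + C * t) * gap G u

theorem exists_outVar (h : IsCH G D) (o : Fin n → ℝ) {R : ℝ} {c : Fin n → ℝ}
    (hc : D o c ≤ R) {W : (Fin n → ℝ) → ℝ} (hW : ContDiff ℝ 1 W)
    (hWp : ∀ y, D o y ≤ R + 1 → 0 < W y) {e : ℝ} (he : 0 < e) :
    ∃ τ C : ℝ, 0 < τ ∧ 0 ≤ C ∧ OutVar G D o R c W e τ C := by
  set K : Set (Fin n → ℝ) := {y | D o y ≤ R}
  have hK : IsCompact K := h.proper o R
  obtain ⟨r, hr, hKr⟩ := hK.isBounded.subset_closedBall_lt 0 0
  obtain ⟨φ, hφd⟩ : ∃ φ : ContDiffBump (0 : Fin n → ℝ), φ.rIn = r + 2 :=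
    ⟨⟨r + 2, r + 3, by linarith, by linarith⟩, rfl⟩
  set Z : (Fin n → ℝ) → Fin n → ℝ := fun y => φ y • wfield G D c W y
  have hZ : ContDiff ℝ 1 Z := φ.contDiff.smul (contDiff_wfield h c hW)
  have hZc : HasCompactSupport Z := φ.hasCompactSupport.smul_right
  obtain ⟨B₁, hB₁⟩ := hZc.exists_bound_of_continuous hZ.continuous
  obtain ⟨B₂, hB₂⟩ := (hZc.fderiv ℝ).exists_bound_of_continuous (hZ.continuous_fderiv one_ne_zero)
  obtain ⟨B, hBd⟩ : ∃ B, B = max (max B₁ B₂) 0 := ⟨_, rfl⟩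
  have hB0 : 0 ≤ B := hBd ▸ le_max_right _ _
  have hB : ∀ y, ‖Z y‖ ≤ B ∧ ‖fderiv ℝ Z y‖ ≤ B := fun y => hBd ▸
    ⟨(hB₁ y).trans ((le_max_left _ _).trans (le_max_left _ _)),
      (hB₂ y).trans ((le_max_right _ _).trans (le_max_left _ _))⟩
  have hev : ∀ y, ‖y‖ < r + 2 → Z =ᶠ[𝓝 y] wfield G D c W := fun y hy => by
    filter_upwards [φ.eventuallyEq_one_of_mem_ball (x := y) (by simpa [hφd] using hy)] with z hz
    simp [Z, hz]
  have hnear : ∀ y ∈ K, ‖y‖ < r + 2 := fun y hy => by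
    have : ‖y‖ ≤ r := by simpa using hKr hy
    linarith
  have hWK : ∀ y ∈ K, 0 < W y := fun y hy => hWp y (by have : D o y ≤ R := hy; linarith)
  obtain ⟨τd, hτd, hdef⟩ := exists_defect_step h hK hZ (varW G D c W)
    (fun y _ hξ => continuousAt_varW h c hW y hξ) (fun y ξ k hk => varW_smul h c W y hk ξ)
    (varW_zero c W) (fun y hy ξ hξ => by
      rw [(hev y (hnear y hy)).eq_of_nhds, (hev y (hnear y hy)).fderiv_eq]
      exact defect'_wfield_le h c hW y (hWK y hy).le hξ) he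
  obtain ⟨τs, hτs, hsupp⟩ := exists_support_field h o R c hc hW hWp hKr hB0 (fun y => (hB y).1)
    (fun y hy => (hev y hy).eq_of_nhds)
  obtain ⟨τv, hτv, hvol⟩ := exists_vol_step_out h hK hZ hZc he
  obtain ⟨τj, hτj, hdetb⟩ := exists_det_step (n := n) B
  obtain ⟨Cj, hCj, hjac⟩ := h.exists_jacobian_bound r B
  obtain ⟨md, hmd, hmdle⟩ : ∃ md : ℝ, 0 < md ∧ ∀ y, ‖y‖ ≤ r + 1 → md ≤ dens G y := by
    obtain ⟨y₀, -, hy₀⟩ := (isCompact_closedBall (0 : Fin n → ℝ) (r + 1)).exists_isMinOn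
      ⟨0, by simp; linarith⟩ h.continuous_dens.continuousOn
    exact ⟨dens G y₀, h.dens_pos y₀, fun y hy => hy₀ (by simpa using hy)⟩
  obtain ⟨Cv, hCv0, hCv⟩ := exists_abs_varW_le h c hW hK
  obtain ⟨τ, hτ⟩ : ∃ τ : ℝ, τ = min (min (min τd τs) (min τv τj))
      (min 1 (min (1 / (B + 1)) (1 / Cv))) := ⟨_, rfl⟩
  have hτpos : 0 < τ := by rw [hτ]; positivity
  have hle : τ ≤ τd ∧ τ ≤ τs ∧ τ ≤ τv ∧ τ ≤ τj ∧ τ ≤ 1 ∧ τ ≤ 1 / (B + 1) ∧ τ ≤ 1 / Cv := by
    rw [hτ]
    simp only [min_le_iff, le_refl, true_or, or_true, and_self]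
  obtain ⟨hle1, hle2, hle3, hle4, hle5, hle6, hle7⟩ := hle
  refine ⟨τ, 2 * Cj / md, hτpos, by positivity, fun t u ht htτ hu => ?_⟩
  have htB : t * B < 1 := by
    calc t * B ≤ 1 / (B + 1) * B := mul_le_mul_of_nonneg_right (htτ.trans hle6) hB0
      _ < 1 := by rw [div_mul_eq_mul_div, div_lt_one (by positivity)]; linarith
  have hdet : ∀ y, 1 / 2 ≤ (1 + t • opMat (fderiv ℝ Z y)).det :=
    fun y => hdetb t ⟨ht.le, htτ.trans hle4⟩ _ (hB y).2
  have hsupp' : ∀ y, y + t • Z y ∈ K → y ∈ K :=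
    fun y hy => hsupp t ⟨ht.le, htτ.trans hle2⟩ y hy
  refine ⟨fun y => u (y + t • Z y), ⟨hu.1.comp (contDiff_id.add (hZ.const_smul t)), ?_,
    fun y => hu.2.2 _⟩, ?_, ?_, ?_⟩
  · refine closure_minimal (fun y hy => hsupp' y (hu.2.1 ?_)) hK.isClosed
    exact subset_tsupport _ hy
  · refine per_step_field h hK hu c hW hZ (fun y => (hB y).2) hCv ht.le he.le htB ?_
      (fun y => le_trans (by norm_num) (hdet y)) (hdef t ⟨ht.le, htτ.trans hle1⟩) hsupp'
    calc t * Cv ≤ 1 / Cv * Cv := mul_le_mul_of_nonneg_right (htτ.trans hle7) hCv0.le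
      _ = 1 := div_mul_cancel₀ _ hCv0.ne'
  · have h1 := hvol t ⟨ht.le, htτ.trans hle3⟩ u hu
    have e1 : (∫ y, max (-(cd u y ⬝ᵥ Z y)) 0 * dens G y) =
        ∫ y, max (-normalPart G D c u y) 0 * W y * dens G y := by
      refine integral_congr_ae (Eventually.of_forall fun y => ?_)
      simp only
      by_cases hy : y ∈ K
      · rw [(hev y (hnear y hy)).eq_of_nhds, wfield, dotProduct_smul, smul_eq_mul,
          max_mul_of_nonneg _ _ (hWK y hy).le, zero_mul, neg_mul, mul_comm (W y)]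
        rfl
      · simp [normalPart, pairing, cd_eq_zero_of_notMem fun hs => hy (hu.2.1 hs)]
    rw [e1] at h1
    linarith
  · exact h.gap_step hK hKr hu hZ hB hmd hmdle hCj hjac ⟨ht.le, htτ.trans hle5⟩ htB hdet hsupp'

end Vale.Agent.P219.CH.Dir
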