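import Vale.Agent.P219.Dir.BendDefs
import Vale.Agent.P219.Dir.VolStep
import Vale.Agent.P219.Bend.Var

/-!
# P219: pulling a competitor back along `W ∇ (r ^ 2 / 2)` in curvature at most `-b ^ 2`
-/

noncomputable section

open MeasureTheory Set Filter Topology Matrix

namespace Vale.Agent.P219.CH.Dir

open Sharp Bend

variable {n : ℕ} {G : (Fin n → ℝ) → Matrix (Fin n) (Fin n) ℝ}
  {D : (Fin n → ℝ) → (Fin n → ℝ) → ℝ} {b : ℝ}

/-- `(b r coth (b r) - 1) / r ^ 2` as a function of `t = r ^ 2 / 2`. -/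
def efac (b t : ℝ) : ℝ := 2 * b ^ 2 * cshdd (2 * b ^ 2 * t) / cshd (2 * b ^ 2 * t)

lemma two_mul_efac (b : ℝ) {t : ℝ} (ht : 0 ≤ t) : 2 * t * efac b t = cfac b t - 1 := by
  obtain ⟨X, hX⟩ : ∃ X, X = 2 * b ^ 2 * t := ⟨_, rfl⟩
  have hX0 : 0 ≤ X := hX ▸ arg_nonneg b ht
  have hode := csh_ode (√X)
  rw [Real.sq_sqrt hX0] at hode
  have hs := (cshd_pos hX0).ne'
  rw [efac, cfac, ← hX]
  field_simp
  rw [← hode, hX]
  ring

/-- The scalar coefficient of the variation. -/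
def fK (n : ℕ) (D : (Fin n → ℝ) → (Fin n → ℝ) → ℝ) (b : ℝ) (c : Fin n → ℝ) (W : (Fin n → ℝ) → ℝ)
    (y : Fin n → ℝ) : ℝ :=
  ((n : ℝ) - 1) * cfac b (D c y) * W y

/-- The covector paired with the gradient in the variation. -/
def aK (D : (Fin n → ℝ) → (Fin n → ℝ) → ℝ) (b : ℝ) (c : Fin n → ℝ) (W : (Fin n → ℝ) → ℝ)
    (y : Fin n → ℝ) : Fin n → ℝ :=
  cd W y + (-(efac b (D c y) * W y)) • cd (D c) y

/-- The first variation density along `W ∇ D c`. -/
def varK (G : (Fin n → ℝ) → Matrix (Fin n) (Fin n) ℝ) (D : (Fin n → ℝ) → (Fin n → ℝ) → ℝ) (b : ℝ)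
    (c : Fin n → ℝ) (W : (Fin n → ℝ) → ℝ) (y ξ : Fin n → ℝ) : ℝ :=
  varG G (fK n D b c W) (aK D b c W) (cd (D c)) y ξ

lemma varK_eq (h : IsCH G D) (b : ℝ) (c : Fin n → ℝ) (W : (Fin n → ℝ) → ℝ) (y ξ : Fin n → ℝ) :
    varK G D b c W y ξ =
      (((n : ℝ) - 1) * cfac b (D c y) * W y + pairing G y (cd W y) (cd (D c) y)
          - efac b (D c y) * W y * (2 * D c y)) * conorm G y ξ
        - pairing G y ξ (cd (D c) y) *
          (pairing G y ξ (cd W y) - efac b (D c y) * W y * pairing G y ξ (cd (D c) y)) /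
            conorm G y ξ := by
  rw [varK, varG, fK, aK, pairing_add_left, pairing_smul_left, h.eikonal,
    h.pairing_comm y ξ (cd W y + _), pairing_add_left, pairing_smul_left,
    h.pairing_comm y (cd W y) ξ, h.pairing_comm y (cd (D c) y) ξ]
  ring

lemma continuous_comp_dist (h : IsCH G D) {f : ℝ → ℝ} (hf : ∀ t, 0 ≤ t → ContinuousAt f t)
    (c : Fin n → ℝ) : Continuous fun y => f (D c y) :=
  continuous_iff_continuousAt.2 fun y =>
    (hf _ (h.dist_nonneg c y)).comp_of_eq (h.continuous_D_left c).continuousAt rfl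

lemma continuousAt_efac (b : ℝ) {t : ℝ} (ht : 0 ≤ t) : ContinuousAt (efac b) t := by
  have hl : Continuous fun t : ℝ => 2 * b ^ 2 * t := by fun_prop
  exact ((continuous_const.mul ((contDiff_cshdd (k := 1)).continuous.comp hl)).continuousAt).div
    ((contDiff_cshd (k := 1)).continuous.comp hl).continuousAt (cshd_pos (arg_nonneg b ht)).ne'

lemma continuousAt_cfac (b : ℝ) {t : ℝ} (ht : 0 ≤ t) : ContinuousAt (cfac b) t := by
  have hl : Continuous fun t : ℝ => 2 * b ^ 2 * t := by fun_prop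
  exact ((contDiff_csh (k := 1)).continuous.comp hl).continuousAt.div
    (continuous_const.mul ((contDiff_cshd (k := 1)).continuous.comp hl)).continuousAt
    (mul_pos two_pos (cshd_pos (arg_nonneg b ht))).ne'

lemma continuous_fK (h : IsCH G D) (b : ℝ) (c : Fin n → ℝ) {W : (Fin n → ℝ) → ℝ}
    (hW : Continuous W) : Continuous (fK n D b c W) :=
  (continuous_const.mul (continuous_comp_dist h (fun _ => continuousAt_cfac b) c)).mul hW

lemma continuous_aK (h : IsCH G D) (b : ℝ) (c : Fin n → ℝ) {W : (Fin n → ℝ) → ℝ}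
    (hW : ContDiff ℝ 1 W) : Continuous (aK D b c W) :=
  (continuous_cd hW).add
    (((continuous_comp_dist h (fun _ => continuousAt_efac b) c).mul hW.continuous).neg.smul
      (continuous_cd_dist h c))

/-- The pointwise first variation along `W ∇ D c`. -/
theorem defect'_wfield_bend_le (h : IsCH G D) (hb : BendCH G D b) (c : Fin n → ℝ)
    {W : (Fin n → ℝ) → ℝ} (hW : ContDiff ℝ 1 W) (y : Fin n → ℝ) (hW0 : 0 ≤ W y)
    {ξ : Fin n → ℝ} (hξ : ξ ≠ 0) :
    defect' G y (wfield G D c W y) (fderiv ℝ (wfield G D c W) y) ξ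
      ≤ -(dens G y * varK G D b c W y ξ) := by
  have hd : fderiv ℝ (wfield G D c W) y =
      W y • fderiv ℝ (grad G (D c)) y + (fderiv ℝ W y).smulRight (grad G (D c) y) :=
    ((hW.differentiable one_ne_zero y).hasFDerivAt.smul
      ((h.contDiff_grad_dist c).differentiable one_ne_zero y).hasFDerivAt).fderiv
  have hk := kfac_pos b (h.dist_nonneg c y)
  have h1 := kfac_mul_defect'_le h hb c y hξ
  have h0 : defect' G y (grad G (D c) y) (fderiv ℝ (grad G (D c)) y) ξ ≤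
      -(dens G y * (((n : ℝ) - 1) * cfac b (D c y) * conorm G y ξ +
        efac b (D c y) *
          (pairing G y ξ (cd (D c) y) ^ 2 / conorm G y ξ - 2 * D c y * conorm G y ξ))) := by
    refine le_of_mul_le_mul_left (h1.trans (le_of_eq ?_)) hk
    have hs := cshd_pos (arg_nonneg b (h.dist_nonneg c y))
    have hc := csh_pos (arg_nonneg b (h.dist_nonneg c y))
    obtain ⟨X, hX⟩ : ∃ X, X = 2 * b ^ 2 * D c y := ⟨_, rfl⟩
    rw [← hX] at hs hc
    rw [kfac, cfac, efac, ← hX]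
    field_simp
    ring
  have h2 := mul_le_mul_of_nonneg_left h0 hW0
  have e1 : fderiv ℝ W y ((G y)⁻¹ *ᵥ ξ) = pairing G y ξ (cd W y) := by
    rw [h.pairing_comm, ← cd_dotProduct]; rfl
  have e2 : fderiv ℝ W y (grad G (D c) y) = pairing G y (cd W y) (cd (D c) y) :=
    (pairing_cd _ _ _).symm
  rw [hd, wfield, defect'_smul_add, e1, e2,
    show ξ ⬝ᵥ grad G (D c) y = pairing G y ξ (cd (D c) y) from rfl, varK_eq h]
  refine (add_le_add h2 le_rfl).trans (le_of_eq ?_)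
  ring

/-- The conclusion of `exists_outVarB`. -/
def OutVarB (G : (Fin n → ℝ) → Matrix (Fin n) (Fin n) ℝ) (D : (Fin n → ℝ) → (Fin n → ℝ) → ℝ)
    (b : ℝ) (o : Fin n → ℝ) (R : ℝ) (c : Fin n → ℝ) (W : (Fin n → ℝ) → ℝ) (e τ C : ℝ) : Prop :=
  ∀ t u, 0 < t → t ≤ τ → Comp {y | D o y ≤ R} u →
    ∃ u', Comp {y | D o y ≤ R} u' ∧
      per G u' ≤ per G u - t * (∫ y, varK G D b c W y (cd u y) * dens G y) + t * e * per G u ∧
      vol G u - t * (∫ y, max (-normalPart G D c u y) 0 * W y * dens G y) - t * e * per G u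
        ≤ vol G u' ∧
      gap G u' ≤ (1 + C * t) * gap G u

/-- Pulling a competitor back along `W ∇ D c`, counting only the volume that leaves. -/
theorem exists_outVarB (h : IsCH G D) (hb : BendCH G D b) (o : Fin n → ℝ) {R : ℝ} {c : Fin n → ℝ}
    (hc : D o c ≤ R) {W : (Fin n → ℝ) → ℝ} (hW : ContDiff ℝ 1 W)
    (hWp : ∀ y, D o y ≤ R + 1 → 0 < W y) {e : ℝ} (he : 0 < e) :
    ∃ τ C : ℝ, 0 < τ ∧ 0 ≤ C ∧ OutVarB G D b o R c W e τ C := by
  set K : Set (Fin n → ℝ) := {y | D o y ≤ R}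
  have hK : IsCompact K := h.proper o R
  obtain ⟨r, hr, hKr⟩ := hK.isBounded.subset_closedBall_lt 0 0
  obtain ⟨φ, hφd⟩ : ∃ φ : ContDiffBump (0 : Fin n → ℝ), φ.rIn = r + 2 :=
    ⟨⟨r + 2, r + 3, by linarith, by linarith⟩, rfl⟩
  set Z : (Fin n → ℝ) → Fin n → ℝ := fun y => φ y • wfield G D c W y
  have hZ : ContDiff ℝ 1 Z := φ.contDiff.smul (contDiff_wfield h c hW)
  have hZc : HasCompactSupport Z := φ.hasCompactSupport.smul_right
  obtain ⟨B₁, hB₁⟩ := hZc.exists_bound_of_continuous hZ.continuous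
  obtain ⟨B₂, hB₂⟩ := (hZc.fderiv ℝ).exists_bound_of_continuous (hZ.continuous_fderiv one_ne_zero)
  obtain ⟨B, hBd⟩ : ∃ B, B = max (max B₁ B₂) 0 := ⟨_, rfl⟩
  have hB0 : 0 ≤ B := hBd ▸ le_max_right _ _
  have hB : ∀ y, ‖Z y‖ ≤ B ∧ ‖fderiv ℝ Z y‖ ≤ B := fun y => hBd ▸
    ⟨(hB₁ y).trans ((le_max_left _ _).trans (le_max_left _ _)),
      (hB₂ y).trans ((le_max_right _ _).trans (le_max_left _ _))⟩
  have hev : ∀ y, ‖y‖ < r + 2 → Z =ᶠ[𝓝 y] wfield G D c W := fun y hy => by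
    filter_upwards [φ.eventuallyEq_one_of_mem_ball (x := y) (by simpa [hφd] using hy)] with z hz
    simp [Z, hz]
  have hnear : ∀ y ∈ K, ‖y‖ < r + 2 := fun y hy => by
    have : ‖y‖ ≤ r := by simpa using hKr hy
    linarith
  have hWK : ∀ y ∈ K, 0 < W y := fun y hy => hWp y (by have : D o y ≤ R := hy; linarith)
  have hf := continuous_fK h b c hW.continuous
  have ha := continuous_aK h b c hW
  have hg := continuous_cd_dist h c
  obtain ⟨τd, hτd, hdef⟩ := exists_defect_step h hK hZ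
    (varG G (fK n D b c W) (aK D b c W) (cd (D c)))
    (fun y _ hξ => continuousAt_varG h hf ha hg y hξ) (fun y ξ k hk => varG_smul h y hk ξ)
    (fun y => varG_zero y) (fun y hy ξ hξ => by
      rw [(hev y (hnear y hy)).eq_of_nhds, (hev y (hnear y hy)).fderiv_eq]
      exact defect'_wfield_bend_le h hb c hW y (hWK y hy).le hξ) he
  obtain ⟨τs, hτs, hsupp⟩ := exists_support_field h o R c hc hW hWp hKr hB0 (fun y => (hB y).1)
    (fun y hy => (hev y hy).eq_of_nhds)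
  obtain ⟨τv, hτv, hvol⟩ := exists_vol_step_out h hK hZ hZc he
  obtain ⟨τj, hτj, hdetb⟩ := exists_det_step (n := n) B
  obtain ⟨Cj, hCj, hjac⟩ := h.exists_jacobian_bound r B
  obtain ⟨md, hmd, hmdle⟩ : ∃ md : ℝ, 0 < md ∧ ∀ y, ‖y‖ ≤ r + 1 → md ≤ dens G y := by
    obtain ⟨y₀, -, hy₀⟩ := (isCompact_closedBall (0 : Fin n → ℝ) (r + 1)).exists_isMinOn
      ⟨0, by simp; linarith⟩ h.continuous_dens.continuousOn
    exact ⟨dens G y₀, h.dens_pos y₀, fun y hy => hy₀ (by simpa using hy)⟩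
  obtain ⟨Cv, hCv0, hCv⟩ := exists_abs_varG_le h hf ha hg hK
  obtain ⟨τ, hτ⟩ : ∃ τ : ℝ, τ = min (min (min τd τs) (min τv τj))
      (min 1 (min (1 / (B + 1)) (1 / Cv))) := ⟨_, rfl⟩
  have hτpos : 0 < τ := by rw [hτ]; positivity
  have hle : τ ≤ τd ∧ τ ≤ τs ∧ τ ≤ τv ∧ τ ≤ τj ∧ τ ≤ 1 ∧ τ ≤ 1 / (B + 1) ∧ τ ≤ 1 / Cv := by
    rw [hτ]
    simp only [min_le_iff, le_refl, true_or, or_true, and_self]
  obtain ⟨hle1, hle2, hle3, hle4, hle5, hle6, hle7⟩ := hle
  refine ⟨τ, 2 * Cj / md, hτpos, by positivity, fun t u ht htτ hu => ?_⟩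
  have htB : t * B < 1 := by
    calc t * B ≤ 1 / (B + 1) * B := mul_le_mul_of_nonneg_right (htτ.trans hle6) hB0
      _ < 1 := by rw [div_mul_eq_mul_div, div_lt_one (by positivity)]; linarith
  have hdet : ∀ y, 1 / 2 ≤ (1 + t • opMat (fderiv ℝ Z y)).det :=
    fun y => hdetb t ⟨ht.le, htτ.trans hle4⟩ _ (hB y).2
  have hsupp' : ∀ y, y + t • Z y ∈ K → y ∈ K :=
    fun y hy => hsupp t ⟨ht.le, htτ.trans hle2⟩ y hy
  refine ⟨fun y => u (y + t • Z y), ⟨hu.1.comp (contDiff_id.add (hZ.const_smul t)), ?_,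
    fun y => hu.2.2 _⟩, ?_, ?_, ?_⟩
  · refine closure_minimal (fun y hy => hsupp' y (hu.2.1 ?_)) hK.isClosed
    exact subset_tsupport _ hy
  · refine per_step_density h hK hu hZ _ (fun y => varG_zero y)
      (measurable_varG_cd h hf ha hg hu.1) (fun y => (hB y).2) hCv ht.le he.le htB ?_
      (fun y => le_trans (by norm_num) (hdet y)) (hdef t ⟨ht.le, htτ.trans hle1⟩) hsupp'
    calc t * Cv ≤ 1 / Cv * Cv := mul_le_mul_of_nonneg_right (htτ.trans hle7) hCv0.le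
      _ = 1 := div_mul_cancel₀ _ hCv0.ne'
  · have h1 := hvol t ⟨ht.le, htτ.trans hle3⟩ u hu
    have e1 : (∫ y, max (-(cd u y ⬝ᵥ Z y)) 0 * dens G y) =
        ∫ y, max (-normalPart G D c u y) 0 * W y * dens G y := by
      refine integral_congr_ae (Eventually.of_forall fun y => ?_)
      simp only
      by_cases hy : y ∈ K
      · rw [(hev y (hnear y hy)).eq_of_nhds, wfield, dotProduct_smul, smul_eq_mul,
          max_mul_of_nonneg _ _ (hWK y hy).le, zero_mul, neg_mul, mul_comm (W y)]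
        rfl
      · simp [normalPart, pairing, cd_eq_zero_of_notMem fun hs => hy (hu.2.1 hs)]
    rw [e1] at h1
    linarith
  · exact h.gap_step hK hKr hu hZ hB hmd hmdle hCj hjac ⟨ht.le, htτ.trans hle5⟩ htB hdet hsupp'

end Vale.Agent.P219.CH.Dir
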