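import Vale.Agent.P219.Dir.Pointwise
import Vale.Agent.P219.Dir.BendFamily

/-!
# P219: the directional integrand bounds the first variation in curvature at most `-b ^ 2`
-/

noncomputable section

open MeasureTheory Set Filter Topology Matrix

namespace Vale.Agent.P219.CH.Dir

open Sharp Bend

variable {n : ℕ} {G : (Fin n → ℝ) → Matrix (Fin n) (Fin n) ℝ}
  {D : (Fin n → ℝ) → (Fin n → ℝ) → ℝ} {b : ℝ}

/-- The tangential part of the differential of the component is shortened by `sinh (b r) / (b r)`. -/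
theorem sideD_tan_le (h : IsCH G D) (hb : BendCH G D b) {x σ : Fin n → ℝ} (hσ : conorm G x σ ≤ 1)
    {y : Fin n → ℝ} (h0 : 0 < D x y) {a' : Fin n → ℝ}
    (ha' : a' = (2 * D x y) • sideD G D x σ y + (-side G D x σ y) • cd (D x) y) :
    sfac b (D x y) ^ 2 * pairing G y a' a' ≤
      2 * D x y * (2 * D x y - side G D x σ y ^ 2) := by
  obtain ⟨R, hR⟩ : ∃ R, R = 2 * D x y := ⟨_, rfl⟩
  obtain ⟨s, hs⟩ : ∃ s, s = side G D x σ y := ⟨_, rfl⟩
  obtain ⟨S, hS⟩ : ∃ S, S = sfac b (D x y) := ⟨_, rfl⟩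
  obtain ⟨a, ha⟩ : ∃ a, a = sideD G D x σ y := ⟨_, rfl⟩
  rw [← hR, ← hs, ← ha] at ha'
  rw [← hR, ← hs, ← hS]
  have hR0 : 0 < R := by rw [hR]; linarith
  obtain ⟨v, hv⟩ : ∃ v, v = (G y)⁻¹ *ᵥ a' := ⟨_, rfl⟩
  obtain ⟨P, hP⟩ : ∃ P, P = pairing G y a' a' := ⟨_, rfl⟩
  rw [← hP]
  have hab : pairing G y a (cd (D x) y) = s := by rw [ha, hs]; exact pairing_sideD_dist h x σ y
  have hbv : cd (D x) y ⬝ᵥ v = 0 := by
    rw [hv, show cd (D x) y ⬝ᵥ ((G y)⁻¹ *ᵥ a') = pairing G y (cd (D x) y) a' from rfl,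
      h.pairing_comm, ha', pairing_lin_left, hab, h.eikonal, ← hR]
    ring
  have hav : R * (a ⬝ᵥ v) = P := by
    rw [hP, show pairing G y a' a' = a' ⬝ᵥ v by rw [hv]; rfl]
    conv_rhs => rw [ha', add_dotProduct, smul_dotProduct, smul_dotProduct, hbv]
    simp
  set A := frame G x
  obtain ⟨L, hL⟩ : ∃ L, L = A *ᵥ Six.mixedD D x y v := ⟨_, rfl⟩
  have hu : ∀ k, cd (fun z => ucoord G D x z k) y ⬝ᵥ v = L k := fun k => by
    have hd : HasFDerivAt (fun z => A *ᵥ cd (D z) x)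
        ((Matrix.toLin' A).toContinuousLinearMap.comp (Six.mixedD D x y)) y :=
      ((Matrix.toLin' A).toContinuousLinearMap.hasFDerivAt).comp y (Six.hasFDerivAt_mixed h x y)
    rw [cd_dotProduct, show (fun z => ucoord G D x z k) = fun z => (A *ᵥ cd (D z) x) k from rfl,
      (hasFDerivAt_pi'.1 hd k).fderiv, hL]
    simp
  have key := sum_fderiv_ucoord_sfac h hb x y v
  have hq : qf G y v = P := by
    rw [qf, hv, h.mulVec_inv, dotProduct_comm, hP]; rfl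
  simp only [hu, hbv, hq, ← hR, ← hS] at key
  have hL2 : S ^ 2 * (L ⬝ᵥ L) ≤ P := by
    refine le_of_mul_le_mul_left ?_ hR0
    rw [show L ⬝ᵥ L = ∑ k, L k ^ 2 by simp [dotProduct, sq]]
    linarith
  -- the two covectors in the frame at `x`
  obtain ⟨σ', hσ'⟩ : ∃ z, z = A *ᵥ σ := ⟨_, rfl⟩
  obtain ⟨U, hU⟩ : ∃ z, z = ucoord G D x y := ⟨_, rfl⟩
  have hUU : U ⬝ᵥ U = R := by rw [hU, ucoord_dot h, hR, dist_symm h y x]
  have hσU : σ' ⬝ᵥ U = -s := by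
    rw [hσ', hU, ucoord, frame_dot h, hs, side_eq, neg_neg]
  have hUL : U ⬝ᵥ L = 0 := by
    rw [hU, hL, ucoord, frame_dot h, h.pairing_comm]
    exact (show pairing G x (Six.mixedD D x y v) (cd (D y) x) =
      grad G (D y) x ⬝ᵥ Six.mixedD D x y v from dotProduct_comm _ _).trans
        ((grad_dot_mixed h x y v).trans hbv)
  have hσL : a ⬝ᵥ v = -(σ' ⬝ᵥ L) := by
    rw [ha, sideD_dot, hσ', hL, frame_dot h, neg_mulVec, dotProduct_neg]
    rfl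
  have hσσ : σ' ⬝ᵥ σ' ≤ 1 := by
    rw [hσ', frame_dot h, ← h.conorm_sq]
    exact pow_le_one₀ (conorm_nonneg _ _) hσ
  obtain ⟨τ, hτ⟩ : ∃ z, z = R • σ' + s • U := ⟨_, rfl⟩
  have hτL : τ ⬝ᵥ L = -P := by
    rw [hτ, add_dotProduct, smul_dotProduct, smul_dotProduct, hUL, smul_eq_mul, smul_eq_mul,
      show σ' ⬝ᵥ L = -(a ⬝ᵥ v) by rw [hσL, neg_neg]]
    linarith
  have hττ : τ ⬝ᵥ τ ≤ R * (R - s ^ 2) := by
    rw [hτ]
    simp only [add_dotProduct, dotProduct_add, smul_dotProduct, dotProduct_smul, smul_eq_mul,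
      dotProduct_comm U σ', hσU, hUU]
    have := mul_le_mul_of_nonneg_left hσσ (sq_nonneg R)
    linarith
  have hcs : (τ ⬝ᵥ L) ^ 2 ≤ (τ ⬝ᵥ τ) * (L ⬝ᵥ L) := by
    simpa [dotProduct, sq] using Finset.sum_mul_sq_le_sq_mul_sq Finset.univ τ L
  rw [hτL, neg_sq] at hcs
  have hP0 : 0 ≤ P := hP ▸ h.conorm_sq y a' ▸ sq_nonneg _
  have hX : 0 ≤ R * (R - s ^ 2) := le_trans (by
    simpa [dotProduct] using Finset.sum_nonneg fun k _ => mul_self_nonneg (τ k)) hττ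
  have h1 : S ^ 2 * P ^ 2 ≤ R * (R - s ^ 2) * P :=
    calc S ^ 2 * P ^ 2 ≤ S ^ 2 * ((τ ⬝ᵥ τ) * (L ⬝ᵥ L)) :=
          mul_le_mul_of_nonneg_left hcs (sq_nonneg S)
      _ = (τ ⬝ᵥ τ) * (S ^ 2 * (L ⬝ᵥ L)) := by ring
      _ ≤ R * (R - s ^ 2) * P := mul_le_mul hττ hL2
          (mul_nonneg (sq_nonneg S) (by
            simpa [dotProduct] using Finset.sum_nonneg fun k _ => mul_self_nonneg (L k))) hX
  rcases eq_or_lt_of_le hP0 with h2 | h2
  · rw [← h2, mul_zero]; exact hX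
  · refine le_of_mul_le_mul_right ?_ h2
    linarith

/-- The mixed product of the radial and the directional components, in curvature at most `-b ^ 2`. -/
lemma abs_cross_bend_le (h : IsCH G D) (hb : BendCH G D b) {x σ : Fin n → ℝ}
    (hσ : conorm G x σ ≤ 1) (y ξ : Fin n → ℝ) {d : ℝ}
    (hd : d * Real.sqrt (2 * D x y) * conorm G y ξ = -pairing G y ξ (cd (D x) y)) (hd1 : |d| ≤ 1) :
    |pairing G y ξ (cd (D x) y) * pairing G y ξ (sideD G D x σ y) -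
        d ^ 2 * conorm G y ξ ^ 2 * side G D x σ y| ≤
      conorm G y ξ ^ 2 * (|d| * Real.sqrt (1 - d ^ 2) *
        Real.sqrt (2 * D x y - side G D x σ y ^ 2) / sfac b (D x y)) := by
  obtain ⟨k, hk⟩ : ∃ z, z = conorm G y ξ := ⟨_, rfl⟩
  obtain ⟨s, hs⟩ : ∃ z, z = side G D x σ y := ⟨_, rfl⟩
  obtain ⟨p, hp⟩ : ∃ z, z = pairing G y ξ (cd (D x) y) := ⟨_, rfl⟩
  obtain ⟨q, hq⟩ : ∃ z, z = pairing G y ξ (sideD G D x σ y) := ⟨_, rfl⟩
  obtain ⟨r, hr⟩ : ∃ z, z = Real.sqrt (2 * D x y) := ⟨_, rfl⟩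
  obtain ⟨S, hS⟩ : ∃ z, z = sfac b (D x y) := ⟨_, rfl⟩
  rw [← hk, ← hs, ← hp, ← hq, ← hS]
  rw [← hk, ← hp, ← hr] at hd
  have hS0 : 0 < S := hS ▸ sfac_pos b (h.dist_nonneg x y)
  have hk0 : 0 ≤ k := hk ▸ conorm_nonneg _ _
  have hr2 : r ^ 2 = 2 * D x y := hr ▸ Real.sq_sqrt (by linarith [h.dist_nonneg x y])
  have hr0 : 0 ≤ r := hr ▸ Real.sqrt_nonneg _
  have hd2 : d ^ 2 ≤ 1 := by rw [← sq_abs]; exact pow_le_one₀ (abs_nonneg d) hd1
  rcases eq_or_lt_of_le hr0 with h0 | h0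
  · have hp0 : p = 0 := by rw [← h0] at hd; linarith
    have hs0 : s = 0 := by
      have := sq_side_le h hσ y
      rw [← hs, ← hr2, ← h0] at this
      nlinarith
    rw [hp0, hs0, zero_mul, mul_zero, sub_zero, abs_zero]
    positivity
  have hD0 : 0 < D x y := by nlinarith
  obtain ⟨a', ha'⟩ : ∃ z, z = (2 * D x y) • sideD G D x σ y + (-s) • cd (D x) y := ⟨_, rfl⟩
  have hA := sideD_tan_le h hb hσ hD0 (a' := a') (by rw [ha', hs])
  rw [← hs, ← hS, ← hr2] at hA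
  obtain ⟨ξ', hξ'⟩ : ∃ z, z = (r ^ 2) • ξ + (-p) • cd (D x) y := ⟨_, rfl⟩
  have hbb : pairing G y (cd (D x) y) (cd (D x) y) = r ^ 2 := by rw [hr2]; exact h.eikonal x y
  have hab : pairing G y (sideD G D x σ y) (cd (D x) y) = s := by
    rw [hs]; exact pairing_sideD_dist h x σ y
  have hξξ : pairing G y ξ ξ = k ^ 2 := by rw [hk, h.conorm_sq]
  have e1 : pairing G y ξ' a' = r ^ 2 * (r ^ 2 * q - p * s) := by
    rw [hξ', ha', ← hr2, pairing_lin h, pairing_lin_left, pairing_lin_left,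
      h.pairing_comm y (cd (D x) y) (sideD G D x σ y), hab, hbb, ← hp, ← hq]
    ring
  have e2 : pairing G y ξ' ξ' = r ^ 2 * (r ^ 2 * k ^ 2 * (1 - d ^ 2)) := by
    rw [hξ', pairing_lin h, pairing_lin_left, pairing_lin_left, h.pairing_comm y (cd (D x) y) ξ,
      hξξ, hbb, ← hp, show p = -(d * r * k) by linarith]
    ring
  have hcs := h.abs_pairing_le y ξ' a'
  rw [e1, conorm, conorm, e2] at hcs
  have h1 : Real.sqrt (pairing G y a' a') ≤ r * Real.sqrt (r ^ 2 - s ^ 2) / S := by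
    rw [le_div_iff₀ hS0, mul_comm _ S]
    have : S * Real.sqrt (pairing G y a' a') = Real.sqrt (S ^ 2 * pairing G y a' a') := by
      rw [Real.sqrt_mul (sq_nonneg S), Real.sqrt_sq hS0.le]
    rw [this]
    refine (Real.sqrt_le_sqrt hA).trans_eq ?_
    rw [Real.sqrt_mul (sq_nonneg r), Real.sqrt_sq hr0]
  have h2 : Real.sqrt (r ^ 2 * (r ^ 2 * k ^ 2 * (1 - d ^ 2))) =
      r * (r * k * Real.sqrt (1 - d ^ 2)) := by
    rw [Real.sqrt_mul (sq_nonneg r), Real.sqrt_sq hr0, ← mul_pow,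
      Real.sqrt_mul (sq_nonneg _), Real.sqrt_sq (mul_nonneg hr0 hk0)]
  rw [h2, abs_mul, abs_of_nonneg (sq_nonneg r)] at hcs
  have hX : |r ^ 2 * q - p * s| ≤ r * k * Real.sqrt (1 - d ^ 2) * Real.sqrt (r ^ 2 - s ^ 2) / S := by
    refine le_of_mul_le_mul_left ?_ (pow_pos h0 2)
    refine (hcs.trans (mul_le_mul_of_nonneg_left h1 (mul_nonneg hr0 (mul_nonneg
      (mul_nonneg hr0 hk0) (Real.sqrt_nonneg _))))).trans (le_of_eq ?_)
    ring
  have e4 : p * q - d ^ 2 * k ^ 2 * s = p * (r ^ 2 * q - p * s) / r ^ 2 := by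
    rw [show p = -(d * r * k) by linarith]
    field_simp
    ring
  have e5 : |p| = |d| * r * k := by
    rw [show p = -(d * r * k) by linarith, abs_neg, abs_mul, abs_mul, abs_of_nonneg hr0,
      abs_of_nonneg hk0]
  rw [e4, abs_div, abs_mul, abs_of_nonneg (sq_nonneg r), div_le_iff₀ (pow_pos h0 2), e5, ← hr2]
  refine (mul_le_mul_of_nonneg_left hX (by positivity)).trans (le_of_eq ?_)
  ring

/-- The first variation is at least the directional integrand. -/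
theorem kernB_le_rowDens (h : IsCH G D) (hb : BendCH G D b) (u : (Fin n → ℝ) → ℝ) {w : ℝ × ℝ → ℝ}
    (hw : ContDiff ℝ 1 w) {x σ : Fin n → ℝ} (hσ : conorm G x σ ≤ 1) (hh : ℝ) (y : Fin n → ℝ) :
    kernB n b hh w (D x y) (side G D x σ y) (scos G D u x y) * conorm G y (cd u y) ≤
      rowDensK G D b hh x (weight G D w x σ) y (cd u y) := by
  have hd := scos_mul h u x y
  have hd1 := scos_mem h u x y
  have hX := abs_cross_bend_le h hb hσ y (cd u y) hd hd1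
  have hef := two_mul_efac b (h.dist_nonneg x y)
  obtain ⟨d, hdd⟩ : ∃ z, z = scos G D u x y := ⟨_, rfl⟩
  obtain ⟨k, hk⟩ : ∃ z, z = conorm G y (cd u y) := ⟨_, rfl⟩
  obtain ⟨s, hs⟩ : ∃ z, z = side G D x σ y := ⟨_, rfl⟩
  obtain ⟨p, hp⟩ : ∃ z, z = pairing G y (cd u y) (cd (D x) y) := ⟨_, rfl⟩
  obtain ⟨q, hq⟩ : ∃ z, z = pairing G y (cd u y) (sideD G D x σ y) := ⟨_, rfl⟩
  rw [normalPart, ← hp] at hd
  simp only [rowDensK, varK_eq h, kernB, cd_weight h hw, weight, pairing_lin h, pairing_lin_left,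
    h.eikonal, pairing_sideD_dist h, ← hdd, ← hk, ← hs, ← hp, ← hq] at hd hX ⊢
  obtain ⟨f, hf⟩ : ∃ z, z = w (D x y, s) := ⟨_, rfl⟩
  obtain ⟨A, hA⟩ : ∃ z, z = wa w (D x y, s) := ⟨_, rfl⟩
  obtain ⟨B, hB⟩ : ∃ z, z = wb w (D x y, s) := ⟨_, rfl⟩
  obtain ⟨a, ha⟩ : ∃ z, z = D x y := ⟨_, rfl⟩
  obtain ⟨c, hc⟩ : ∃ z, z = cfac b (D x y) := ⟨_, rfl⟩
  obtain ⟨E, hE⟩ : ∃ z, z = efac b (D x y) := ⟨_, rfl⟩
  obtain ⟨S, hS⟩ : ∃ z, z = sfac b (D x y) := ⟨_, rfl⟩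
  obtain ⟨Q, hQ⟩ : ∃ z, z = |d| * Real.sqrt (1 - d ^ 2) * Real.sqrt (2 * D x y - s ^ 2) / S :=
    ⟨_, rfl⟩
  rw [← hS, ← hQ] at hX
  have e1 : |B| * |d| * Real.sqrt (1 - d ^ 2) * Real.sqrt (2 * D x y - s ^ 2) / S = |B| * Q := by
    rw [hQ]; ring
  rw [← hf, ← hA, ← hB, ← hc, ← hE, ← hS, e1]
  rw [← hc, ← hE, ← ha] at hef
  have hk0 : 0 ≤ k := hk ▸ conorm_nonneg _ _
  obtain ⟨r, hr⟩ : ∃ z, z = Real.sqrt (2 * D x y) := ⟨_, rfl⟩
  have hr2 : r ^ 2 = 2 * a := by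
    rw [hr, ha]; exact Real.sq_sqrt (by linarith [h.dist_nonneg x y])
  have hr0 : 0 ≤ r := hr ▸ Real.sqrt_nonneg _
  rw [← hr] at hd ⊢
  rw [← ha]
  have hflux : max (-p) 0 = k * r * max d 0 := by
    rw [← hd, mul_max_of_nonneg _ _ (mul_nonneg hk0 hr0), mul_zero, show d * r * k = k * r * d by ring]
  rw [hflux]
  have hpp : p * p = d ^ 2 * k ^ 2 * (2 * a) := by
    rw [← hr2, show p = -(d * r * k) by linarith]; ring
  rcases eq_or_lt_of_le hk0 with h0 | h0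
  · simp [← h0]
  have hB' : B * (p * q) ≤ B * (d ^ 2 * k ^ 2 * s) + |B| * (k ^ 2 * Q) := by
    have h1 : B * (p * q - d ^ 2 * k ^ 2 * s) ≤ |B| * (k ^ 2 * Q) :=
      (le_abs_self _).trans ((abs_mul _ _).trans_le
        (mul_le_mul_of_nonneg_left hX (abs_nonneg B)))
    linarith
  have e2 : p * (A * p + B * q - E * f * p) / k =
      A * (p * p) / k + B * (p * q) / k - E * f * (p * p) / k := by ring
  have h3 : B * (p * q) / k ≤ k * (B * d ^ 2 * s + |B| * Q) := by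
    rw [div_le_iff₀ h0]
    linarith
  have h4 : A * (p * p) / k = k * (A * d ^ 2 * (2 * a)) := by
    rw [hpp]; field_simp
  have h5 : E * f * (p * p) / k = k * (f * d ^ 2 * (c - 1)) := by
    rw [hpp, ← hef]; field_simp
  rw [e2, h4, h5]
  have h6 : E * f * (2 * a) * k = (c - 1) * f * k := by rw [← hef]; ring
  linarith

end Vale.Agent.P219.CH.Dir
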