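import Vale.Agent.P219.Dir.Row
import Vale.Agent.P219.Dir.BendPointwise

/-!
# P219: the directional row in curvature at most `-b ^ 2`
-/

noncomputable section

open MeasureTheory Set Filter Topology Matrix

namespace Vale.Agent.P219.CH.Dir

variable {n : ℕ} {G : (Fin n → ℝ) → Matrix (Fin n) (Fin n) ℝ}
  {D : (Fin n → ℝ) → (Fin n → ℝ) → ℝ} {K : Set (Fin n → ℝ)} {u : (Fin n → ℝ) → ℝ}

lemma sfac_pos' (h : IsCH G D) (b : ℝ) (x y : Fin n → ℝ) : 0 < Bend.sfac b (D x y) :=
  Bend.sfac_pos b (h.dist_nonneg x y)

/-- The integrand along a competitor is integrable. -/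
theorem integrable_kernB (h : IsCH G D) (hK : IsCompact K) (hu : Comp K u) (b hh : ℝ)
    {w : ℝ × ℝ → ℝ} (hw : ContDiff ℝ 1 w) (x σ : Fin n → ℝ) :
    Integrable (fun y => kernB n b hh w (D x y) (side G D x σ y) (scos G D u x y))
      (Sharp.pm G u) := by
  have hD := h.continuous_D_left x
  have hs : Continuous fun y => side G D x σ y := (contDiff_side h x σ).continuous
  have hz : Continuous fun y => (D x y, side G D x σ y) := hD.prodMk hs
  have hW : Continuous fun y => w (D x y, side G D x σ y) := hw.continuous.comp hz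
  have hA : Continuous fun y => wa w (D x y, side G D x σ y) :=
    ((hw.continuous_fderiv one_ne_zero).comp hz).clm_apply continuous_const
  have hB : Continuous fun y => wb w (D x y, side G D x σ y) :=
    ((hw.continuous_fderiv one_ne_zero).comp hz).clm_apply continuous_const
  have hc : Continuous fun y => Bend.cfac b (D x y) :=
    continuous_comp_dist h (fun _ => continuousAt_cfac b) x
  have hS : Continuous fun y => Bend.sfac b (D x y) :=
    continuous_const.mul ((Bend.contDiff_cshd (k := 1)).continuous.comp (continuous_const.mul hD))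
  have hd : Measurable fun y => scos G D u x y :=
    ((h.continuous_normalPart hu.1 x).neg.measurable).div
      ((h.continuous_conorm_cd hu.1).measurable.mul ((hD.const_mul 2).sqrt.measurable))
  refine Sharp.integrable_pm_of_le h hK hu (g := fun y =>
    (1 + ((n : ℝ) + 2) * |Bend.cfac b (D x y)|) * |w (D x y, side G D x σ y)| +
      (|2 * D x y * wa w (D x y, side G D x σ y)| +
        |side G D x σ y * wb w (D x y, side G D x σ y)|) +
      |wb w (D x y, side G D x σ y)| * Real.sqrt (2 * D x y) / Bend.sfac b (D x y) +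
      |hh| * Real.sqrt (2 * D x y) * |w (D x y, side G D x σ y)|) ?_ ?_ fun y _ => ?_
  · unfold kernB
    exact ((((measurable_const.sub (hd.pow_const 2)).add (hc.measurable.mul
        (measurable_const.add (hd.pow_const 2)))).mul hW.measurable).add
      ((measurable_const.sub (hd.pow_const 2)).mul
        (((hD.const_mul 2).mul hA).add (hs.mul hB)).measurable)).sub
      ((((hB.abs.measurable.mul hd.abs).mul (measurable_const.sub (hd.pow_const 2)).sqrt).mul
        ((hD.const_mul 2).sub (hs.pow 2)).sqrt.measurable).div hS.measurable) |>.sub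
      (((measurable_const.mul (hD.const_mul 2).sqrt.measurable).mul
        (hd.max measurable_const)).mul hW.measurable)
  · exact ((((continuous_const.add (continuous_const.mul hc.abs)).mul hW.abs).add
      (((hD.const_mul 2).mul hA).abs.add (hs.mul hB).abs)).add
      ((hB.abs.mul (hD.const_mul 2).sqrt).div hS fun y => (sfac_pos' h b x y).ne') |>.add
      ((continuous_const.mul (hD.const_mul 2).sqrt).mul hW.abs)).continuousOn
  · obtain ⟨d, hdd⟩ : ∃ z, z = scos G D u x y := ⟨_, rfl⟩
    have hd1 : |d| ≤ 1 := hdd ▸ scos_mem h u x y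
    have hd2 : d ^ 2 ≤ 1 := by rw [← sq_abs]; exact pow_le_one₀ (abs_nonneg d) hd1
    have hS0 : 0 < Bend.sfac b (D x y) := sfac_pos' h b x y
    obtain ⟨s, hss⟩ : ∃ z, z = side G D x σ y := ⟨_, rfl⟩
    obtain ⟨a, haa⟩ : ∃ z, z = D x y := ⟨_, rfl⟩
    rw [← hdd, ← hss, ← haa, kernB]
    rw [← haa] at hS0
    have hn : |((n : ℝ) - 2) + d ^ 2| ≤ (n : ℝ) + 2 := abs_le.2
      ⟨by linarith [(Nat.cast_nonneg n : (0 : ℝ) ≤ n), sq_nonneg d], by linarith⟩
    refine (abs_sub _ _).trans (add_le_add ((abs_sub _ _).trans (add_le_add ((abs_add_le _ _).trans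
      (add_le_add ?_ ?_)) ?_)) ?_)
    · rw [abs_mul]
      refine mul_le_mul_of_nonneg_right ((abs_add_le _ _).trans (add_le_add ?_ ?_)) (abs_nonneg _)
      · rw [abs_of_nonneg (by linarith)]; linarith [sq_nonneg d]
      · rw [abs_mul, mul_comm _ |Bend.cfac b a|]
        exact mul_le_mul_of_nonneg_left hn (abs_nonneg _)
    · rw [abs_mul, abs_of_nonneg (by linarith : (0 : ℝ) ≤ 1 - d ^ 2)]
      refine (mul_le_of_le_one_left (abs_nonneg _) (by linarith [sq_nonneg d])).trans ?_
      exact abs_add_le _ _
    · rw [abs_of_nonneg (by positivity)]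
      refine div_le_div_of_nonneg_right ?_ hS0.le
      have h1 : |d| * Real.sqrt (1 - d ^ 2) ≤ 1 := mul_le_one₀ hd1 (Real.sqrt_nonneg _)
        (Real.sqrt_le_one.2 (by linarith [sq_nonneg d]))
      rw [mul_assoc |wb w (a, s)|, mul_assoc |wb w (a, s)|]
      refine mul_le_mul_of_nonneg_left ?_ (abs_nonneg _)
      exact (mul_le_of_le_one_left (Real.sqrt_nonneg _) h1).trans
        (Real.sqrt_le_sqrt (by linarith [sq_nonneg s]))
    · rw [abs_mul, abs_mul, abs_mul, abs_of_nonneg (Real.sqrt_nonneg _)]
      refine mul_le_mul_of_nonneg_right (mul_le_of_le_one_right (by positivity) ?_) (abs_nonneg _)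
      rw [abs_of_nonneg (le_max_right d 0)]
      exact max_le ((le_abs_self d).trans hd1) zero_le_one

/-- `DirRowBendPin`. -/
theorem dirRowBendPin (n : ℕ) : DirRowBendPin n := by
  intro _ G D h b hb o R P₀ v₀ M θ κ Φ hs hR hP₀ hv₀ hΦ hM hθ hκ P w hP hw hpos
  have hq : Continuous fun q : ((Fin n → ℝ) × (Fin n → ℝ) × ℝ) × (Fin n → ℝ) =>
      (q.1.1, q.1.2.1, q.2) := by fun_prop
  have hz : Continuous fun q : ((Fin n → ℝ) × (Fin n → ℝ) × ℝ) × (Fin n → ℝ) =>
      (q.1.2.2, D q.1.1 q.2, side G D q.1.1 q.1.2.1 q.2) :=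
    (continuous_snd.comp (continuous_snd.comp continuous_fst)).prodMk
      ((h.continuous_D.comp ((continuous_fst.comp continuous_fst).prodMk continuous_snd)).prodMk
        ((continuous_side h).comp hq))
  have hfam := family_row_profile h hb o (R := R) hP₀ hv₀ hΦ hM hθ hκ
    (isCompact_paramSet h o R hP)
    (c := fun z => z.1) continuous_fst (W := fun z => weight G D (w z.2.2) z.1 z.2.1)
    (fun z => contDiff_weight h (contDiff_family hw _) _ _) (hw.continuous.comp hz) ?_ ?_
  · refine hfam.mono fun δ hδ u hu x σ hx hσ p hp => ?_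
    have hK : IsCompact {y | D o y ≤ R} := h.proper o R
    have hwp := contDiff_family hw p
    have hi := integrable_kernB h hK hu.1 b (θ * hs (vol G u)) hwp x σ
    refine ⟨hi, le_trans ?_ (hδ u hu (x, σ, p) ⟨hx, hσ, hp⟩)⟩
    rw [Sharp.integral_pm h hu.1.1, rowIntegK]
    have hi' : Integrable fun y => kernB n b (θ * hs (vol G u)) (w p) (D x y)
        (side G D x σ y) (scos G D u x y) * (conorm G y (cd u y) * dens G y) := by
      have hm := (Sharp.continuous_weight h hu.1.1).measurable.ennreal_ofReal
      refine ((integrable_withDensity_iff_integrable_smul' hm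
        (Eventually.of_forall fun _ => ENNReal.ofReal_lt_top)).1 hi).congr
          (Eventually.of_forall fun y => ?_)
      simp only
      rw [ENNReal.toReal_ofReal (Sharp.weight_nonneg h u y), smul_eq_mul, mul_comm]
    refine integral_mono hi' (integrable_rowDensK h hK hu.1 b _ x (contDiff_weight h hwp x σ))
      fun y => ?_
    simp only
    rw [← mul_assoc]
    exact mul_le_mul_of_nonneg_right (kernB_le_rowDens h hb u hwp hσ _ y) (h.dens_pos y).le
  · simp only [cd_weight h (contDiff_family hw _), wa, wb, fderiv_family hw]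
    have hd := (hw.continuous_fderiv one_ne_zero).comp hz
    exact ((hd.clm_apply continuous_const).smul ((Sharp.contDiff_logCovector h).continuous.comp
      (continuous_snd.prodMk (continuous_fst.comp continuous_fst)))).add
      ((hd.clm_apply continuous_const).smul ((continuous_sideD h).comp hq))
  · rintro ⟨x, σ, p⟩ ⟨hx, hσ, hp⟩
    exact ⟨hx, fun y _ => hpos p hp _ _ (h.dist_nonneg x y) (sq_side_le h hσ y)⟩

end Vale.Agent.P219.CH.Dir
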