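import Vale.Agent.P219.Six.Defs
import Vale.Agent.P219.Sharp.Defs

/-!
# P219: the row of a centre with a weight of the distance and of the direction, any dimension

The field at a centre `x` is `w (D x, s) • grad (D x)`, where `s` is the component of the logarithm
along a covector `σ` at `x` of length at most one. With `u (r, c) = r * w (r ^ 2 / 2, r * c)` the
integrand is that of `notes/P219/lead-directional-weights.md`.
-/

noncomputable section

open MeasureTheory Set Filter Topology Matrix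

namespace Vale.Agent.P219.CH.Dir

variable {n : ℕ}

/-- The component along `σ` of the logarithm of `y` at `x`. -/
def side (G : (Fin n → ℝ) → Matrix (Fin n) (Fin n) ℝ) (D : (Fin n → ℝ) → (Fin n → ℝ) → ℝ)
    (x σ y : Fin n → ℝ) : ℝ :=
  σ ⬝ᵥ Six.logv G D x y

/-- The signed cosine at `y`: positive where the gradient of `D x` leaves the set of `u`. -/
def scos (G : (Fin n → ℝ) → Matrix (Fin n) (Fin n) ℝ) (D : (Fin n → ℝ) → (Fin n → ℝ) → ℝ)
    (u : (Fin n → ℝ) → ℝ) (x y : Fin n → ℝ) : ℝ :=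
  -normalPart G D x u y / (conorm G y (cd u y) * Real.sqrt (2 * D x y))

/-- The partial derivative in the half squared distance. -/
def wa (w : ℝ × ℝ → ℝ) (z : ℝ × ℝ) : ℝ := fderiv ℝ w z (1, 0)

/-- The partial derivative in the component. -/
def wb (w : ℝ × ℝ → ℝ) (z : ℝ × ℝ) : ℝ := fderiv ℝ w z (0, 1)

/-- The integrand of the row per unit of `|du| dvol`: `h` is the mean curvature, `a` the half
squared distance, `s` the component along the covector and `d` the signed cosine. -/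
def kern (n : ℕ) (h : ℝ) (w : ℝ × ℝ → ℝ) (a s d : ℝ) : ℝ :=
  ((n : ℝ) - 1) * w (a, s) + (1 - d ^ 2) * (2 * a * wa w (a, s) + s * wb w (a, s))
    - |wb w (a, s)| * |d| * Real.sqrt (1 - d ^ 2) * Real.sqrt (2 * a - s ^ 2)
    - h * Real.sqrt (2 * a) * max d 0 * w (a, s)

/-- The first variation with a directional weight: uniform in the centre, the covector and a
parameter of the weight in a compact set, for instance the scale. -/
def DirRowPin (n : ℕ) : Prop :=
  2 ≤ n → ∀ (G : (Fin n → ℝ) → Matrix (Fin n) (Fin n) ℝ)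
    (D : (Fin n → ℝ) → (Fin n → ℝ) → ℝ), IsCH G D →
    ∀ (o : Fin n → ℝ) (R P₀ v₀ l M θ κ : ℝ), 0 < R → 0 ≤ P₀ → 0 < v₀ → 0 < l → 0 ≤ M → 1 < θ →
      0 < κ →
    ∀ (P : Set ℝ) (w : ℝ → ℝ × ℝ → ℝ), IsCompact P →
      ContDiff ℝ 1 (fun z : ℝ × ℝ × ℝ => w z.1 z.2) →
      (∀ p ∈ P, ∀ a s, 0 ≤ a → s ^ 2 ≤ 2 * a → 0 < w p (a, s)) →
    ∀ᶠ δ in 𝓝[>] (0 : ℝ), ∀ u, Sharp.NearMin G D o R P₀ v₀ l M δ u →
      ∀ x σ, D o x ≤ R → conorm G x σ ≤ 1 → ∀ p ∈ P,
        Integrable (fun y => kern n (l * (((n : ℝ) - 1) / n) * θ *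
            vol G u ^ (((n : ℝ) - 1) / n - 1)) (w p) (D x y) (side G D x σ y)
            (scos G D u x y)) (Sharp.pm G u) ∧
          ∫ y, kern n (l * (((n : ℝ) - 1) / n) * θ * vol G u ^ (((n : ℝ) - 1) / n - 1)) (w p)
            (D x y) (side G D x σ y) (scos G D u x y) ∂Sharp.pm G u ≤ κ

end Vale.Agent.P219.CH.Dir
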