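import Vale.Agent.P219.Dir.Radial
import Vale.Agent.P219.Dir.Family

/-!
# P219: the pointwise bound of the first variation by the directional integrand
-/

noncomputable section

open MeasureTheory Set Filter Topology Matrix

namespace Vale.Agent.P219.CH.Dir

variable {n : ℕ} {G : (Fin n → ℝ) → Matrix (Fin n) (Fin n) ℝ}
  {D : (Fin n → ℝ) → (Fin n → ℝ) → ℝ}

/-- The weight of a centre and a covector. -/
def weight (G : (Fin n → ℝ) → Matrix (Fin n) (Fin n) ℝ) (D : (Fin n → ℝ) → (Fin n → ℝ) → ℝ)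
    (w : ℝ × ℝ → ℝ) (x σ y : Fin n → ℝ) : ℝ :=
  w (D x y, side G D x σ y)

lemma contDiff_side (h : IsCH G D) (x σ : Fin n → ℝ) :
    ContDiff ℝ 1 fun y => side G D x σ y := by
  have hl : ContDiff ℝ 1 fun y => cd (D y) x :=
    (Sharp.contDiff_logCovector h).comp (contDiff_const.prodMk contDiff_id)
  simp only [side_eq, pairing, dotProduct, mulVec]
  exact (ContDiff.sum fun i _ => contDiff_const.mul
    (ContDiff.sum fun j _ => contDiff_const.mul ((contDiff_apply ℝ ℝ j).comp hl))).neg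

lemma contDiff_weight (h : IsCH G D) {w : ℝ × ℝ → ℝ} (hw : ContDiff ℝ 1 w) (x σ : Fin n → ℝ) :
    ContDiff ℝ 1 (weight G D w x σ) :=
  hw.comp (((h.contDiff_D x).of_le (by norm_num)).prodMk (contDiff_side h x σ))

lemma cd_weight (h : IsCH G D) {w : ℝ × ℝ → ℝ} (hw : ContDiff ℝ 1 w) (x σ y : Fin n → ℝ) :
    cd (weight G D w x σ) y =
      wa w (D x y, side G D x σ y) • cd (D x) y +
        wb w (D x y, side G D x σ y) • sideD G D x σ y := by
  have hD : HasFDerivAt (D x) (fderiv ℝ (D x) y) y :=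
    ((h.contDiff_D x).differentiable two_ne_zero y).hasFDerivAt
  obtain ⟨L, hL, hv⟩ := hasFDerivAt_side h x σ y
  have hc : HasFDerivAt (weight G D w x σ)
      ((fderiv ℝ w (D x y, side G D x σ y)).comp ((fderiv ℝ (D x) y).prod L)) y :=
    ((hw.differentiable one_ne_zero _).hasFDerivAt).comp y (hD.prodMk hL)
  funext i
  rw [cd, hc.fderiv]
  simp only [ContinuousLinearMap.comp_apply, ContinuousLinearMap.prod_apply, Pi.add_apply,
    Pi.smul_apply, smul_eq_mul]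
  rw [hv, dotProduct_single, mul_one]
  have e : ∀ a b : ℝ, ((a, b) : ℝ × ℝ) = a • (1, 0) + b • (0, 1) := fun a b => by simp
  rw [e (fderiv ℝ (D x) y _) (sideD G D x σ y i), map_add, map_smul, map_smul, smul_eq_mul,
    smul_eq_mul, cd, wa, wb]
  ring

lemma pairing_lin (h : IsCH G D) (y ξ a b : Fin n → ℝ) (α β : ℝ) :
    pairing G y ξ (α • a + β • b) = α * pairing G y ξ a + β * pairing G y ξ b := by
  rw [h.pairing_comm, pairing_add_left, pairing_smul_left, pairing_smul_left, h.pairing_comm y a,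
    h.pairing_comm y b]

lemma pairing_lin_left (y ξ a b : Fin n → ℝ) (α β : ℝ) :
    pairing G y (α • a + β • b) ξ = α * pairing G y a ξ + β * pairing G y b ξ := by
  rw [pairing_add_left, pairing_smul_left, pairing_smul_left]

lemma scos_mul (h : IsCH G D) (u : (Fin n → ℝ) → ℝ) (x y : Fin n → ℝ) :
    scos G D u x y * Real.sqrt (2 * D x y) * conorm G y (cd u y) = -normalPart G D x u y := by
  have hle := h.abs_normalPart_le x u y
  rcases eq_or_lt_of_le (mul_nonneg (conorm_nonneg (G := G) y (cd u y))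
    (Real.sqrt_nonneg (2 * D x y))) with h0 | h0
  · rw [← h0] at hle
    rw [abs_nonpos_iff.1 hle, mul_assoc, mul_comm (Real.sqrt _), ← h0, mul_zero, neg_zero]
  · rw [scos, mul_assoc, mul_comm (Real.sqrt _), div_mul_cancel₀ _ h0.ne']

lemma scos_mem (h : IsCH G D) (u : (Fin n → ℝ) → ℝ) (x y : Fin n → ℝ) :
    |scos G D u x y| ≤ 1 := by
  have hk := mul_nonneg (conorm_nonneg (G := G) y (cd u y)) (Real.sqrt_nonneg (2 * D x y))
  rw [scos, abs_div, abs_neg, abs_of_nonneg hk]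
  exact div_le_one_of_le₀ (h.abs_normalPart_le x u y) hk

/-- The mixed product of the radial and the directional components of a covector. -/
lemma abs_cross_le (h : IsCH G D) {x σ : Fin n → ℝ} (hσ : conorm G x σ ≤ 1) (y ξ : Fin n → ℝ)
    {d : ℝ} (hd : d * Real.sqrt (2 * D x y) * conorm G y ξ = -pairing G y ξ (cd (D x) y))
    (hd1 : |d| ≤ 1) :
    |pairing G y ξ (cd (D x) y) * pairing G y ξ (sideD G D x σ y) -
        d ^ 2 * conorm G y ξ ^ 2 * side G D x σ y| ≤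
      conorm G y ξ ^ 2 * (|d| * Real.sqrt (1 - d ^ 2) *
        Real.sqrt (2 * D x y - side G D x σ y ^ 2)) := by
  obtain ⟨a, ha⟩ : ∃ z, z = sideD G D x σ y := ⟨_, rfl⟩
  obtain ⟨b, hb⟩ : ∃ z, z = cd (D x) y := ⟨_, rfl⟩
  obtain ⟨k, hk⟩ : ∃ z, z = conorm G y ξ := ⟨_, rfl⟩
  obtain ⟨s, hs⟩ : ∃ z, z = side G D x σ y := ⟨_, rfl⟩
  obtain ⟨p, hp⟩ : ∃ z, z = pairing G y ξ b := ⟨_, rfl⟩
  obtain ⟨q, hq⟩ : ∃ z, z = pairing G y ξ a := ⟨_, rfl⟩
  obtain ⟨r, hr⟩ : ∃ z, z = Real.sqrt (2 * D x y) := ⟨_, rfl⟩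
  rw [← ha, ← hb, ← hk, ← hs, ← hp, ← hq]
  rw [← hb, ← hk, ← hp, ← hr] at hd
  have hk0 : 0 ≤ k := hk ▸ conorm_nonneg _ _
  have hr2 : r ^ 2 = 2 * D x y := hr ▸ Real.sq_sqrt (by linarith [h.dist_nonneg x y])
  have hs2 : s ^ 2 ≤ r ^ 2 := by rw [hr2, hs]; exact sq_side_le h hσ y
  have hd2 : d ^ 2 ≤ 1 := by rw [← sq_abs]; exact pow_le_one₀ (abs_nonneg d) hd1
  have hr0 : 0 ≤ r := hr ▸ Real.sqrt_nonneg _
  rw [← hr2]
  rcases eq_or_lt_of_le hr0 with h0 | h0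
  · have hp0 : p = 0 := by rw [← h0] at hd; linarith
    have hs0 : s = 0 := by rw [← h0] at hs2; nlinarith
    rw [hp0, hs0]
    simpa using mul_nonneg (sq_nonneg k) (mul_nonneg (mul_nonneg (abs_nonneg d)
      (Real.sqrt_nonneg _)) (Real.sqrt_nonneg _))
  have hbb : pairing G y b b = r ^ 2 := by rw [hr2, hb]; exact h.eikonal x y
  have hab : pairing G y a b = s := by rw [ha, hb, hs]; exact pairing_sideD_dist h x σ y
  have hξξ : pairing G y ξ ξ = k ^ 2 := by rw [hk, h.conorm_sq]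
  have haa : pairing G y a a ≤ 1 := by
    rw [← h.conorm_sq, ha]
    exact pow_le_one₀ (conorm_nonneg _ _) ((sideD_contraction h x σ y).trans hσ)
  obtain ⟨ξ', hξ'⟩ : ∃ z, z = (r ^ 2) • ξ + (-p) • b := ⟨_, rfl⟩
  obtain ⟨a', ha'⟩ : ∃ z, z = (r ^ 2) • a + (-s) • b := ⟨_, rfl⟩
  have e1 : pairing G y ξ' a' = r ^ 2 * (r ^ 2 * q - p * s) := by
    rw [hξ', ha', pairing_lin h, pairing_lin_left, pairing_lin_left, h.pairing_comm y b a, hab,
      hbb, ← hp, ← hq]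
    ring
  have e2 : pairing G y ξ' ξ' = r ^ 2 * (r ^ 2 * k ^ 2 * (1 - d ^ 2)) := by
    rw [hξ', pairing_lin h, pairing_lin_left, pairing_lin_left, h.pairing_comm y b ξ, hξξ, hbb,
      ← hp, show p = -(d * r * k) by linarith]
    ring
  have e3 : pairing G y a' a' ≤ r ^ 2 * (r ^ 2 - s ^ 2) := by
    have e : pairing G y a' a' = r ^ 2 * (r ^ 2 * pairing G y a a - s ^ 2) := by
      rw [ha', pairing_lin h, pairing_lin_left, pairing_lin_left, h.pairing_comm y b a, hab, hbb]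
      ring
    rw [e]
    have h1 := mul_le_mul_of_nonneg_left haa (sq_nonneg r)
    exact mul_le_mul_of_nonneg_left (by linarith) (sq_nonneg r)
  have hcs := h.abs_pairing_le y ξ' a'
  rw [e1, conorm, conorm, e2] at hcs
  have hX : |r ^ 2 * q - p * s| ≤ r * k * Real.sqrt (1 - d ^ 2) * Real.sqrt (r ^ 2 - s ^ 2) := by
    refine le_of_mul_le_mul_left ?_ (pow_pos h0 2)
    have h1 : Real.sqrt (pairing G y a' a') ≤ r * Real.sqrt (r ^ 2 - s ^ 2) := by
      refine (Real.sqrt_le_sqrt e3).trans_eq ?_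
      rw [Real.sqrt_mul (sq_nonneg r), Real.sqrt_sq hr0]
    have h2 : Real.sqrt (r ^ 2 * (r ^ 2 * k ^ 2 * (1 - d ^ 2))) =
        r * (r * k * Real.sqrt (1 - d ^ 2)) := by
      rw [Real.sqrt_mul (sq_nonneg r), Real.sqrt_sq hr0, ← mul_pow,
        Real.sqrt_mul (sq_nonneg _), Real.sqrt_sq (mul_nonneg hr0 hk0)]
    rw [h2, abs_mul, abs_of_nonneg (sq_nonneg r)] at hcs
    refine (hcs.trans (mul_le_mul_of_nonneg_left h1 (mul_nonneg hr0 (mul_nonneg
      (mul_nonneg hr0 hk0) (Real.sqrt_nonneg _))))).trans (le_of_eq ?_)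
    ring
  have e4 : p * q - d ^ 2 * k ^ 2 * s = p * (r ^ 2 * q - p * s) / r ^ 2 := by
    rw [show p = -(d * r * k) by linarith]
    field_simp
    ring
  rw [e4, abs_div, abs_mul, abs_of_nonneg (sq_nonneg r), div_le_iff₀ (pow_pos h0 2)]
  have e5 : |p| = |d| * r * k := by
    rw [show p = -(d * r * k) by linarith, abs_neg, abs_mul, abs_mul, abs_of_nonneg hr0,
      abs_of_nonneg hk0]
  rw [e5]
  refine (mul_le_mul_of_nonneg_left hX (by positivity)).trans (le_of_eq ?_)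
  ring

/-- The first variation is at least the directional integrand. -/
theorem kern_le_rowDens (h : IsCH G D) (u : (Fin n → ℝ) → ℝ) {w : ℝ × ℝ → ℝ}
    (hw : ContDiff ℝ 1 w) {x σ : Fin n → ℝ} (hσ : conorm G x σ ≤ 1) (hh : ℝ) (y : Fin n → ℝ) :
    kern n hh w (D x y) (side G D x σ y) (scos G D u x y) * conorm G y (cd u y) ≤
      rowDens G D hh x (weight G D w x σ) y (cd u y) := by
  have hd := scos_mul h u x y
  have hd1 := scos_mem h u x y
  have hX := abs_cross_le h hσ y (cd u y) hd hd1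
  obtain ⟨d, hdd⟩ : ∃ z, z = scos G D u x y := ⟨_, rfl⟩
  obtain ⟨k, hk⟩ : ∃ z, z = conorm G y (cd u y) := ⟨_, rfl⟩
  obtain ⟨s, hs⟩ : ∃ z, z = side G D x σ y := ⟨_, rfl⟩
  obtain ⟨p, hp⟩ : ∃ z, z = pairing G y (cd u y) (cd (D x) y) := ⟨_, rfl⟩
  obtain ⟨q, hq⟩ : ∃ z, z = pairing G y (cd u y) (sideD G D x σ y) := ⟨_, rfl⟩
  rw [normalPart, ← hp] at hd
  simp only [rowDens, Sharp.varW, kern, cd_weight h hw, weight, pairing_lin h, pairing_lin_left,
    h.eikonal, pairing_sideD_dist h, ← hdd, ← hk, ← hs, ← hp, ← hq] at hd hX ⊢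
  obtain ⟨f, hf⟩ : ∃ z, z = w (D x y, s) := ⟨_, rfl⟩
  obtain ⟨A, hA⟩ : ∃ z, z = wa w (D x y, s) := ⟨_, rfl⟩
  obtain ⟨B, hB⟩ : ∃ z, z = wb w (D x y, s) := ⟨_, rfl⟩
  obtain ⟨a, ha⟩ : ∃ z, z = D x y := ⟨_, rfl⟩
  obtain ⟨Q, hQ⟩ : ∃ z, z = |d| * Real.sqrt (1 - d ^ 2) * Real.sqrt (2 * D x y - s ^ 2) :=
    ⟨_, rfl⟩
  rw [← hQ] at hX
  have e1 : |B| * |d| * Real.sqrt (1 - d ^ 2) * Real.sqrt (2 * D x y - s ^ 2) = |B| * Q := by
    rw [hQ]; ring
  rw [← hf, ← hA, ← hB, e1]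
  have hk0 : 0 ≤ k := hk ▸ conorm_nonneg _ _
  obtain ⟨r, hr⟩ : ∃ z, z = Real.sqrt (2 * D x y) := ⟨_, rfl⟩
  have hr2 : r ^ 2 = 2 * a := by
    rw [hr, ha]; exact Real.sq_sqrt (by linarith [h.dist_nonneg x y])
  have hr0 : 0 ≤ r := hr ▸ Real.sqrt_nonneg _
  rw [← hr] at hd ⊢
  rw [← ha]
  have hflux : max (-p) 0 = k * r * max d 0 := by
    rw [← hd, mul_max_of_nonneg _ _ (mul_nonneg hk0 hr0), mul_zero, show d * r * k = k * r * d by ring]
  rw [hflux]
  have hpp : p * p = d ^ 2 * k ^ 2 * (2 * a) := by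
    rw [← hr2, show p = -(d * r * k) by linarith]; ring
  rcases eq_or_lt_of_le hk0 with h0 | h0
  · simp [← h0]
  have hB' : B * (p * q) ≤ B * (d ^ 2 * k ^ 2 * s) + |B| * (k ^ 2 * Q) := by
    have h1 : B * (p * q - d ^ 2 * k ^ 2 * s) ≤ |B| * (k ^ 2 * Q) :=
      (le_abs_self _).trans ((abs_mul _ _).trans_le
        (mul_le_mul_of_nonneg_left hX (abs_nonneg B)))
    linarith
  have e2 : p * (A * p + B * q) / k = A * (p * p) / k + B * (p * q) / k := by ring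
  have h3 : B * (p * q) / k ≤ k * (B * d ^ 2 * s + |B| * Q) := by
    rw [div_le_iff₀ h0]
    linarith
  have h4 : A * (p * p) / k = k * (A * d ^ 2 * (2 * a)) := by
    rw [hpp]; field_simp
  rw [e2, h4]
  linarith

end Vale.Agent.P219.CH.Dir
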