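import Vale.Agent.P219.Dir.Defs
import Vale.Agent.P219.Six.Mixed

/-!
# P219: the differential of the logarithm: radial identity and contraction
-/

noncomputable section

open MeasureTheory Set Filter Topology Matrix

namespace Vale.Agent.P219.CH.Dir

open Six

variable {n : ℕ} {G : (Fin n → ℝ) → Matrix (Fin n) (Fin n) ℝ}
  {D : (Fin n → ℝ) → (Fin n → ℝ) → ℝ}

/-- The derivative of the eikonal equation at `x` in the other point. -/
lemma grad_dot_mixed (h : IsCH G D) (x y v : Fin n → ℝ) :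
    grad G (D y) x ⬝ᵥ mixedD D x y v = cd (D x) y ⬝ᵥ v := by
  have hM : HasDerivAt (fun t : ℝ => cd (D (y + t • v)) x) (mixedD D x y v) 0 :=
    (hasFDerivAt_mixed h x y).comp_hasDerivAt_of_eq 0 (hasDerivAt_line y v) (by simp)
  set A := (Matrix.toLin' (G x)⁻¹).toContinuousLinearMap
  have hA : HasDerivAt (fun t : ℝ => A (cd (D (y + t • v)) x)) (A (mixedD D x y v)) 0 :=
    A.hasFDerivAt.comp_hasDerivAt 0 hM
  have h1 : HasDerivAt (fun t : ℝ => ∑ i, cd (D (y + t • v)) x i * A (cd (D (y + t • v)) x) i)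
      (∑ i, (mixedD D x y v i * A (cd (D (y + (0 : ℝ) • v)) x) i +
        cd (D (y + (0 : ℝ) • v)) x i * A (mixedD D x y v) i)) 0 :=
    HasDerivAt.fun_sum fun i _ => (hasDerivAt_pi.1 hM i).mul (hasDerivAt_pi.1 hA i)
  have h2 : HasDerivAt (fun t : ℝ => 2 * D x (y + t • v)) (2 * (cd (D x) y ⬝ᵥ v)) 0 := by
    rw [cd_dotProduct]
    exact ((((h.contDiff_D x).differentiable two_ne_zero y).hasFDerivAt).comp_hasDerivAt_of_eq 0
      (hasDerivAt_line y v) (by simp)).const_mul 2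
  have e : (fun t : ℝ => ∑ i, cd (D (y + t • v)) x i * A (cd (D (y + t • v)) x) i) =
      fun t : ℝ => 2 * D x (y + t • v) := funext fun t => by
    rw [h.dist_comm x (y + t • v), ← h.eikonal]
    simp [A, pairing, dotProduct]
  rw [e] at h1
  have key := h1.unique h2
  have s1 : ∑ i, (mixedD D x y v i * A (cd (D (y + (0 : ℝ) • v)) x) i +
      cd (D (y + (0 : ℝ) • v)) x i * A (mixedD D x y v) i) =
      2 * (grad G (D y) x ⬝ᵥ mixedD D x y v) := by
    have e1 : cd (D y) x ⬝ᵥ A (mixedD D x y v) = grad G (D y) x ⬝ᵥ mixedD D x y v := by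
      have := h.pairing_comm x (cd (D y) x) (mixedD D x y v)
      simp only [pairing] at this
      simp only [A, grad, LinearMap.coe_toContinuousLinearMap', Matrix.toLin'_apply]
      rw [this, dotProduct_comm]
    rw [Finset.sum_add_distrib]
    simp only [zero_smul, add_zero]
    change mixedD D x y v ⬝ᵥ A (cd (D y) x) + cd (D y) x ⬝ᵥ A (mixedD D x y v) = _
    rw [e1, show A (cd (D y) x) = grad G (D y) x by simp [A, grad], dotProduct_comm, two_mul]
  rw [s1] at key
  linarith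

/-- The differential of the logarithm takes the radial field to the logarithm. -/
theorem mixed_radial (h : IsCH G D) (x y : Fin n → ℝ) :
    mixedD D x y (grad G (D x) y) = cd (D y) x := by
  funext a
  have h1 := grad_dot_mixed h y x (ev a)
  have h2 : cd (D y) x ⬝ᵥ ev a = cd (D y) x a := by simp [ev]
  rw [h2, ← opMat_mulVec (mixedD D y x), opMat_mixed_symm h x y, dotProduct_mulVec,
    vecMul_transpose] at h1
  rw [← h1, ← opMat_mulVec (mixedD D x y)]
  simp [ev]

lemma side_eq (x σ y : Fin n → ℝ) :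
    side G D x σ y = -pairing G x σ (cd (D y) x) := by
  simp [side, logv, grad, pairing]

lemma abs_side_le (h : IsCH G D) (x σ y : Fin n → ℝ) :
    |side G D x σ y| ≤ conorm G x σ * Real.sqrt (2 * D x y) := by
  rw [side_eq, abs_neg]
  refine (h.abs_pairing_le x σ _).trans (le_of_eq ?_)
  rw [conorm, conorm, h.eikonal, Sharp.dist_symm h y x]

lemma sq_side_le (h : IsCH G D) {x σ : Fin n → ℝ} (hσ : conorm G x σ ≤ 1) (y : Fin n → ℝ) :
    side G D x σ y ^ 2 ≤ 2 * D x y := by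
  have h0 : (0 : ℝ) ≤ 2 * D x y := by linarith [h.dist_nonneg x y]
  have h1 := (abs_side_le h x σ y).trans
    (mul_le_of_le_one_left (Real.sqrt_nonneg _) hσ)
  have h2 := pow_le_pow_left₀ (abs_nonneg _) h1 2
  rwa [sq_abs, Real.sq_sqrt h0] at h2

/-- The differential of the component. -/
def sideD (G : (Fin n → ℝ) → Matrix (Fin n) (Fin n) ℝ) (D : (Fin n → ℝ) → (Fin n → ℝ) → ℝ)
    (x σ y : Fin n → ℝ) : Fin n → ℝ :=
  fun i => σ ⬝ᵥ (-(G x)⁻¹ *ᵥ mixedD D x y (ev i))

lemma sideD_dot (x σ y v : Fin n → ℝ) :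
    sideD G D x σ y ⬝ᵥ v = σ ⬝ᵥ (-(G x)⁻¹ *ᵥ mixedD D x y v) := by
  conv_rhs => rw [← sum_ev v]
  simp only [map_sum, map_smul, mulVec_sum, mulVec_smul, dotProduct_sum, dotProduct_smul,
    smul_eq_mul]
  simp only [sideD, dotProduct, mul_comm (v _)]

lemma hasFDerivAt_side (h : IsCH G D) (x σ y : Fin n → ℝ) :
    ∃ L : (Fin n → ℝ) →L[ℝ] ℝ, HasFDerivAt (fun z => side G D x σ z) L y ∧
      ∀ v, L v = sideD G D x σ y ⬝ᵥ v := by
  set T : (Fin n → ℝ) →ₗ[ℝ] ℝ :=
    { toFun := fun v => σ ⬝ᵥ v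
      map_add' := fun a b => dotProduct_add σ a b
      map_smul' := fun c a => by simp [dotProduct_smul] }
  refine ⟨T.toContinuousLinearMap.comp
    ((Matrix.toLin' (-(G x)⁻¹)).toContinuousLinearMap.comp (mixedD D x y)),
    T.toContinuousLinearMap.hasFDerivAt.comp y (hasFDerivAt_logv h x y), fun v => ?_⟩
  rw [sideD_dot]
  simp [T, neg_mulVec, dotProduct_neg]

lemma cd_side (h : IsCH G D) (x σ y : Fin n → ℝ) :
    cd (fun z => side G D x σ z) y = sideD G D x σ y := by
  obtain ⟨L, hL, hv⟩ := hasFDerivAt_side h x σ y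
  funext i
  rw [cd, hL.fderiv, hv]
  simp

lemma pairing_sideD_dist (h : IsCH G D) (x σ y : Fin n → ℝ) :
    pairing G y (sideD G D x σ y) (cd (D x) y) = side G D x σ y := by
  show sideD G D x σ y ⬝ᵥ grad G (D x) y = _
  rw [sideD_dot, mixed_radial h]
  simp [side, logv, grad, neg_mulVec]

/-- The component shortens vectors. -/
theorem sideD_contraction (h : IsCH G D) (x σ y : Fin n → ℝ) :
    conorm G y (sideD G D x σ y) ≤ conorm G x σ := by
  obtain ⟨a, ha⟩ : ∃ a, a = sideD G D x σ y := ⟨_, rfl⟩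
  obtain ⟨v, hv⟩ : ∃ v, v = (G y)⁻¹ *ᵥ a := ⟨_, rfl⟩
  rw [← ha]
  set A := Sharp.frame G x
  have hu : ∀ k, cd (fun z => Sharp.ucoord G D x z k) y ⬝ᵥ v = (A *ᵥ mixedD D x y v) k := fun k => by
    have hd : HasFDerivAt (fun z => A *ᵥ cd (D z) x)
        ((Matrix.toLin' A).toContinuousLinearMap.comp (mixedD D x y)) y :=
      ((Matrix.toLin' A).toContinuousLinearMap.hasFDerivAt).comp y (hasFDerivAt_mixed h x y)
    rw [cd_dotProduct, show (fun z => Sharp.ucoord G D x z k) = fun z => (A *ᵥ cd (D z) x) k from rfl,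
      (hasFDerivAt_pi'.1 hd k).fderiv]
    simp
  have key := Sharp.sum_fderiv_ucoord_le h x y v
  simp only [hu] at key
  have hq : qf G y v = pairing G y a a := by
    rw [qf, hv, h.mulVec_inv, dotProduct_comm]; rfl
  have e1 : pairing G y a a = -∑ k, (A *ᵥ σ) k * (A *ᵥ mixedD D x y v) k := by
    have h1 : pairing G y a a = a ⬝ᵥ v := by rw [hv]; rfl
    rw [h1, ha, sideD_dot, neg_mulVec, dotProduct_neg]
    congr 1
    exact (Sharp.frame_dot h x σ (mixedD D x y v)).symm
  have e2 : ∑ k, (A *ᵥ σ) k ^ 2 = pairing G x σ σ := by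
    rw [← Sharp.frame_dot h x σ σ]
    simp [dotProduct, sq]
    rfl
  have cs := Finset.sum_mul_sq_le_sq_mul_sq Finset.univ (fun k => (A *ᵥ σ) k)
    fun k => (A *ᵥ mixedD D x y v) k
  rw [e2] at cs
  have hX := h.pairing_self_nonneg y a
  have hS := h.pairing_self_nonneg x σ
  rw [conorm, conorm]
  refine Real.sqrt_le_sqrt ?_
  rcases eq_or_lt_of_le hX with h0 | h0
  · rw [← h0]; exact hS
  refine le_of_mul_le_mul_right ?_ h0
  calc pairing G y a a * pairing G y a a =
      (∑ k, (A *ᵥ σ) k * (A *ᵥ mixedD D x y v) k) ^ 2 := by rw [e1]; ring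
    _ ≤ pairing G x σ σ * ∑ k, (A *ᵥ mixedD D x y v) k ^ 2 := cs
    _ ≤ pairing G x σ σ * pairing G y a a := mul_le_mul_of_nonneg_left (key.trans_eq hq) hS

end Vale.Agent.P219.CH.Dir
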