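import Vale.Agent.P219.Dir.Pointwise

/-!
# P219: the directional row
-/

noncomputable section

open MeasureTheory Set Filter Topology Matrix

namespace Vale.Agent.P219.CH.Dir

variable {n : ℕ} {G : (Fin n → ℝ) → Matrix (Fin n) (Fin n) ℝ}
  {D : (Fin n → ℝ) → (Fin n → ℝ) → ℝ} {K : Set (Fin n → ℝ)} {u : (Fin n → ℝ) → ℝ}

lemma continuous_side (h : IsCH G D) :
    Continuous fun q : (Fin n → ℝ) × (Fin n → ℝ) × (Fin n → ℝ) => side G D q.1 q.2.1 q.2.2 := by
  simp only [side_eq]
  exact (h.continuous_pairing.comp (continuous_fst.prodMk ((continuous_fst.comp continuous_snd).prodMk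
    ((Sharp.contDiff_logCovector h).continuous.comp
      (continuous_fst.prodMk (continuous_snd.comp continuous_snd)))))).neg

lemma mixedD_apply (h : IsCH G D) (x y v : Fin n → ℝ) :
    Six.mixedD D x y v =
      fderiv ℝ (fun p : (Fin n → ℝ) × (Fin n → ℝ) => cd (D p.2) p.1) (x, y) (0, v) := by
  have hd : HasFDerivAt (fun z => cd (D z) x)
      ((fderiv ℝ (fun p : (Fin n → ℝ) × (Fin n → ℝ) => cd (D p.2) p.1) (x, y)).comp
        ((0 : (Fin n → ℝ) →L[ℝ] (Fin n → ℝ)).prod (ContinuousLinearMap.id ℝ _))) y :=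
    (((Sharp.contDiff_logCovector h).differentiable one_ne_zero (x, y)).hasFDerivAt).comp y
      ((hasFDerivAt_const x y).prodMk (hasFDerivAt_id y))
  rw [Six.mixedD, hd.fderiv]
  simp

lemma continuous_sideD (h : IsCH G D) :
    Continuous fun q : (Fin n → ℝ) × (Fin n → ℝ) × (Fin n → ℝ) =>
      sideD G D q.1 q.2.1 q.2.2 := by
  refine continuous_pi fun i => ?_
  have hm : Continuous fun q : (Fin n → ℝ) × (Fin n → ℝ) × (Fin n → ℝ) =>
      Six.mixedD D q.1 q.2.2 (ev i) := by
    simp only [mixedD_apply h]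
    exact (((Sharp.contDiff_logCovector h).continuous_fderiv one_ne_zero).comp
      (continuous_fst.prodMk (continuous_snd.comp continuous_snd))).clm_apply continuous_const
  simp only [sideD, dotProduct, mulVec, Matrix.neg_apply, neg_mul, Finset.sum_neg_distrib]
  refine continuous_finsetSum _ fun a _ => ((continuous_apply a).comp
    (continuous_fst.comp continuous_snd)).mul (continuous_finsetSum _ fun b _ => ?_).neg
  exact ((h.contDiff_inv a b).continuous.comp continuous_fst).mul ((continuous_apply b).comp hm)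

lemma fderiv_family {w : ℝ → ℝ × ℝ → ℝ} (hw : ContDiff ℝ 1 fun z : ℝ × ℝ × ℝ => w z.1 z.2)
    (p : ℝ) (z v : ℝ × ℝ) :
    fderiv ℝ (w p) z v = fderiv ℝ (fun z : ℝ × ℝ × ℝ => w z.1 z.2) (p, z) (0, v) := by
  have hd : HasFDerivAt (w p) ((fderiv ℝ (fun z : ℝ × ℝ × ℝ => w z.1 z.2) (p, z)).comp
      ((0 : (ℝ × ℝ) →L[ℝ] ℝ).prod (ContinuousLinearMap.id ℝ _))) z :=
    ((hw.differentiable one_ne_zero (p, z)).hasFDerivAt).comp z
      ((hasFDerivAt_const p z).prodMk (hasFDerivAt_id z))
  rw [hd.fderiv]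
  simp

lemma contDiff_family {w : ℝ → ℝ × ℝ → ℝ} (hw : ContDiff ℝ 1 fun z : ℝ × ℝ × ℝ => w z.1 z.2)
    (p : ℝ) : ContDiff ℝ 1 (w p) :=
  hw.comp (contDiff_const.prodMk contDiff_id)

/-- Centres, covectors of length at most one and parameters. -/
def paramSet (G : (Fin n → ℝ) → Matrix (Fin n) (Fin n) ℝ)
    (D : (Fin n → ℝ) → (Fin n → ℝ) → ℝ) (o : Fin n → ℝ) (R : ℝ) (P : Set ℝ) :
    Set ((Fin n → ℝ) × (Fin n → ℝ) × ℝ) :=
  {z | D o z.1 ≤ R ∧ conorm G z.1 z.2.1 ≤ 1 ∧ z.2.2 ∈ P}

lemma isCompact_paramSet (h : IsCH G D) (o : Fin n → ℝ) (R : ℝ) {P : Set ℝ} (hP : IsCompact P) :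
    IsCompact (paramSet G D o R P) := by
  have hK := h.proper o R
  obtain ⟨B, hB⟩ := hK.bddAbove_image (f := fun x => ∑ i, conorm G x (G x *ᵥ ev i)) (by
    refine (continuous_finsetSum _ fun i _ => h.continuous_conorm.comp
      (continuous_id.prodMk (Continuous.matrix_mulVec
        (continuous_matrix fun a b => (h.smooth_metric a b).continuous) continuous_const))).continuousOn)
  refine (hK.prod ((isCompact_closedBall (0 : Fin n → ℝ) (max B 0)).prod hP)).of_isClosed_subset
    ?_ ?_
  · exact (isClosed_le ((h.continuous_D_left o).comp continuous_fst) continuous_const).inter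
      ((isClosed_le (h.continuous_conorm.comp
        (continuous_fst.prodMk (continuous_fst.comp continuous_snd))) continuous_const).inter
          (hP.isClosed.preimage (continuous_snd.comp continuous_snd)))
  · rintro ⟨x, σ, p⟩ ⟨hx, hσ, hp⟩
    simp only at hx hσ hp
    refine ⟨hx, ?_, hp⟩
    rw [Metric.mem_closedBall, dist_zero_right, pi_norm_le_iff_of_nonneg (le_max_right _ _)]
    intro i
    have e : σ i = pairing G x σ (G x *ᵥ ev i) := by
      rw [pairing, mulVec_mulVec, Matrix.nonsing_inv_mul _ (h.det_pos x).ne'.isUnit, one_mulVec]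
      simp [ev]
    rw [Real.norm_eq_abs]
    change |σ i| ≤ _
    rw [e]
    refine (h.abs_pairing_le x σ _).trans ?_
    refine (mul_le_of_le_one_left (conorm_nonneg _ _) hσ).trans ?_
    exact ((Finset.single_le_sum (f := fun i => conorm G x (G x *ᵥ ev i))
      (fun j _ => conorm_nonneg _ _) (Finset.mem_univ i)).trans
        (hB ⟨x, hx, rfl⟩)).trans (le_max_left _ _)

/-- The integrand along a competitor is integrable. -/
theorem integrable_kern (h : IsCH G D) (hK : IsCompact K) (hu : Comp K u) (hh : ℝ)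
    {w : ℝ × ℝ → ℝ} (hw : ContDiff ℝ 1 w) (x σ : Fin n → ℝ) :
    Integrable (fun y => kern n hh w (D x y) (side G D x σ y) (scos G D u x y)) (Sharp.pm G u) := by
  have hD := h.continuous_D_left x
  have hs : Continuous fun y => side G D x σ y := (contDiff_side h x σ).continuous
  have hz : Continuous fun y => (D x y, side G D x σ y) := hD.prodMk hs
  have hW : Continuous fun y => w (D x y, side G D x σ y) := hw.continuous.comp hz
  have hA : Continuous fun y => wa w (D x y, side G D x σ y) :=
    ((hw.continuous_fderiv one_ne_zero).comp hz).clm_apply continuous_const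
  have hB : Continuous fun y => wb w (D x y, side G D x σ y) :=
    ((hw.continuous_fderiv one_ne_zero).comp hz).clm_apply continuous_const
  have hd : Measurable fun y => scos G D u x y :=
    ((h.continuous_normalPart hu.1 x).neg.measurable).div
      ((h.continuous_conorm_cd hu.1).measurable.mul ((hD.const_mul 2).sqrt.measurable))
  refine Sharp.integrable_pm_of_le h hK hu (g := fun y =>
    ((n : ℝ) + 1) * |w (D x y, side G D x σ y)| +
      (|2 * D x y * wa w (D x y, side G D x σ y)| +
        |side G D x σ y * wb w (D x y, side G D x σ y)|) +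
      |wb w (D x y, side G D x σ y)| * Real.sqrt (2 * D x y) +
      |hh| * Real.sqrt (2 * D x y) * |w (D x y, side G D x σ y)|) ?_ ?_ fun y _ => ?_
  · unfold kern
    exact (((measurable_const.mul hW.measurable).add ((measurable_const.sub (hd.pow_const 2)).mul
      (((hD.const_mul 2).mul hA).add (hs.mul hB)).measurable)).sub
      (((hB.abs.measurable.mul hd.abs).mul (measurable_const.sub (hd.pow_const 2)).sqrt).mul
        ((hD.const_mul 2).sub (hs.pow 2)).sqrt.measurable)).sub
      (((measurable_const.mul (hD.const_mul 2).sqrt.measurable).mul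
        (hd.max measurable_const)).mul hW.measurable)
  · exact (((continuous_const.mul hW.abs).add (((hD.const_mul 2).mul hA).abs.add
      (hs.mul hB).abs)).add (hB.abs.mul (hD.const_mul 2).sqrt) |>.add
      ((continuous_const.mul (hD.const_mul 2).sqrt).mul hW.abs)).continuousOn
  · obtain ⟨d, hdd⟩ : ∃ z, z = scos G D u x y := ⟨_, rfl⟩
    have hd1 : |d| ≤ 1 := hdd ▸ scos_mem h u x y
    have hd2 : d ^ 2 ≤ 1 := by rw [← sq_abs]; exact pow_le_one₀ (abs_nonneg d) hd1
    obtain ⟨s, hss⟩ : ∃ z, z = side G D x σ y := ⟨_, rfl⟩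
    obtain ⟨a, haa⟩ : ∃ z, z = D x y := ⟨_, rfl⟩
    rw [← hdd, ← hss, ← haa, kern]
    have hn : |(n : ℝ) - 1| ≤ (n : ℝ) + 1 := abs_le.2
      ⟨by linarith [(Nat.cast_nonneg n : (0 : ℝ) ≤ n)], by linarith⟩
    refine (abs_sub _ _).trans (add_le_add ((abs_sub _ _).trans (add_le_add ((abs_add_le _ _).trans
      (add_le_add ?_ ?_)) ?_)) ?_)
    · rw [abs_mul]; exact mul_le_mul_of_nonneg_right hn (abs_nonneg _)
    · rw [abs_mul, abs_of_nonneg (by linarith : (0 : ℝ) ≤ 1 - d ^ 2)]
      refine (mul_le_of_le_one_left (abs_nonneg _) (by linarith [sq_nonneg d])).trans ?_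
      exact abs_add_le _ _
    · rw [abs_of_nonneg (by positivity)]
      have h1 : |d| * Real.sqrt (1 - d ^ 2) ≤ 1 := mul_le_one₀ hd1 (Real.sqrt_nonneg _)
        (Real.sqrt_le_one.2 (by linarith [sq_nonneg d]))
      rw [mul_assoc |wb w (a, s)|, mul_assoc |wb w (a, s)|]
      refine mul_le_mul_of_nonneg_left ?_ (abs_nonneg _)
      exact (mul_le_of_le_one_left (Real.sqrt_nonneg _) h1).trans
        (Real.sqrt_le_sqrt (by linarith [sq_nonneg s]))
    · rw [abs_mul, abs_mul, abs_mul, abs_of_nonneg (Real.sqrt_nonneg _)]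
      refine mul_le_mul_of_nonneg_right (mul_le_of_le_one_right (by positivity) ?_) (abs_nonneg _)
      rw [abs_of_nonneg (le_max_right d 0)]
      exact max_le ((le_abs_self d).trans hd1) zero_le_one

/-- `DirRowPin`. -/
theorem dirRowPin (n : ℕ) : DirRowPin n := by
  intro hn G D h o R P₀ v₀ l M θ κ hR hP₀ hv₀ hl hM hθ hκ P w hP hw hpos
  obtain ⟨F, hF⟩ : ∃ F : ℝ × ℝ × ℝ → ℝ, F = fun z => w z.1 z.2 := ⟨_, rfl⟩
  obtain ⟨α, hα⟩ : ∃ α : ℝ, α = ((n : ℝ) - 1) / n := ⟨_, rfl⟩
  rw [← hα]
  have hq : Continuous fun q : ((Fin n → ℝ) × (Fin n → ℝ) × ℝ) × (Fin n → ℝ) =>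
      (q.1.1, q.1.2.1, q.2) := by fun_prop
  have hz : Continuous fun q : ((Fin n → ℝ) × (Fin n → ℝ) × ℝ) × (Fin n → ℝ) =>
      (q.1.2.2, D q.1.1 q.2, side G D q.1.1 q.1.2.1 q.2) :=
    (continuous_snd.comp (continuous_snd.comp continuous_fst)).prodMk
      ((h.continuous_D.comp ((continuous_fst.comp continuous_fst).prodMk continuous_snd)).prodMk
        ((continuous_side h).comp hq))
  have hfam := family_row hn h o (R := R) hP₀ hv₀ hl hM hθ hκ hα (isCompact_paramSet h o R hP)
    (c := fun z => z.1) continuous_fst (W := fun z => weight G D (w z.2.2) z.1 z.2.1)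
    (fun z => contDiff_weight h (contDiff_family hw _) _ _) (hw.continuous.comp hz) ?_ ?_
  · refine hfam.mono fun δ hδ u hu x σ hx hσ p hp => ?_
    have hK : IsCompact {y | D o y ≤ R} := h.proper o R
    have hwp := contDiff_family hw p
    have hi := integrable_kern h hK hu.1 (l * α * θ * vol G u ^ (α - 1)) hwp x σ
    refine ⟨hi, le_trans ?_ (hδ u hu (x, σ, p) ⟨hx, hσ, hp⟩)⟩
    rw [Sharp.integral_pm h hu.1.1, rowInteg]
    have hi' : Integrable fun y => kern n (l * α * θ * vol G u ^ (α - 1)) (w p) (D x y)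
        (side G D x σ y) (scos G D u x y) * (conorm G y (cd u y) * dens G y) := by
      have hm := (Sharp.continuous_weight h hu.1.1).measurable.ennreal_ofReal
      refine ((integrable_withDensity_iff_integrable_smul' hm
        (Eventually.of_forall fun _ => ENNReal.ofReal_lt_top)).1 hi).congr
          (Eventually.of_forall fun y => ?_)
      simp only
      rw [ENNReal.toReal_ofReal (Sharp.weight_nonneg h u y), smul_eq_mul, mul_comm]
    refine integral_mono hi' (integrable_rowDens h hK hu.1 _ x (contDiff_weight h hwp x σ))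
      fun y => ?_
    simp only
    rw [← mul_assoc]
    exact mul_le_mul_of_nonneg_right (kern_le_rowDens h u hwp hσ _ y) (h.dens_pos y).le
  · simp only [cd_weight h (contDiff_family hw _), wa, wb, fderiv_family hw]
    have hd := (hw.continuous_fderiv one_ne_zero).comp hz
    exact ((hd.clm_apply continuous_const).smul ((Sharp.contDiff_logCovector h).continuous.comp
      (continuous_snd.prodMk (continuous_fst.comp continuous_fst)))).add
      ((hd.clm_apply continuous_const).smul ((continuous_sideD h).comp hq))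
  · rintro ⟨x, σ, p⟩ ⟨hx, hσ, hp⟩
    exact ⟨hx, fun y _ => hpos p hp _ _ (h.dist_nonneg x y) (sq_side_le h hσ y)⟩

end Vale.Agent.P219.CH.Dir
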